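import Mathlib

/-!
# R255 / OSC / Contract : THE EXIT CONTRACT OF THE PACKET HALF (BR paper, Thm 12.1)        (architect helper207)   -- KEEP

`OSC` = oscillatory integral estimate with loss `λ^ν`, uniform over a class of phases and amplitudes.
Consumers: END255 (BR Sec. 12, distance phase ⟹ S0495) and END254-A (elliptic graphs ⟹ S0494).   Producer: `R255/Pkt/*` (BR Secs. 9-11 + Thm 4.2).

DIFFERENCES WITH THE PAPER (decided by helper207, 14:50Z; they make the statement EASIER to use and to prove):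
* NO GEVREY BOUNDS.  The derivatives of order `j` of the matrix `∂_p ζ` are bounded by an ARBITRARY sequence `A j` (the paper: `A^{j+1} (j!)^3`).
  (The Gevrey bounds are only used to make the canonical root class universal; we let the root class depend on the class constants.)
* EVERYTHING IS GLOBAL in `v` and `p`: `ζ : E2 → E2 → E2` is smooth on `E2 × E2`, the bounds hold everywhere.  (Consumers extend their phases; see BR (12.x) `g̃`.)
* No regularity of `Φ` and of the amplitude `B` in `(c,x)` is required: only `∂_v Φ(c,x,v) = ζ(v, x - c v)` and bounds for the `v`-derivatives of `B(c,x,·)`.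
* the identity `∂_v Φ(c,x,v) = ζ(v, x - c v)` is required for ALL `c ≥ 0` (the class is then closed under the rescaling (9.x) with root time `0`; true for both consumers).
* the `L³` norm of the output is over all of `ℝ × E2` (`B` vanishes unless `c ∈ [0,1]`, `‖x‖ ≤ Rx`, `‖v‖ ≤ Rv`).
-/

set_option autoImplicit false

namespace Claimed.Agent.R255.Osc

open MeasureTheory
open scoped ContDiff InnerProductSpace

/-- the plane -/
abbrev E2 : Type := EuclideanSpace ℝ (Fin 2)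

/-- the constants of a class of phases and amplitudes -/
structure OscBd where
  /-- ellipticity: `a0 ≤ ± ∂_p ζ ≤ a1` -/
  a0 : ℝ
  a1 : ℝ
  /-- bound of the derivatives of total order `j` (in `(v,p)`) of the matrix `∂_p ζ` -/
  A : ℕ → ℝ
  /-- bound of the `v`-derivatives of order `j` of the amplitude -/
  Bb : ℕ → ℝ
  /-- radius of the input region -/
  Rv : ℝ
  /-- radius of the output region -/
  Rx : ℝ

/-- the matrix `∂_p ζ (v,p)` -/
noncomputable def dpZ (ζ : E2 → E2 → E2) (q : E2 × E2) : E2 →L[ℝ] E2 := fderiv ℝ (ζ q.1) q.2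

/-- the phase class: `∂_v Φ(c,x,v) = ζ(v, x - c v)`, `∂_p ζ` symmetric, definite, with bounded derivatives of all orders -/
structure IsPhase (K : OscBd) (Φ : ℝ → E2 → E2 → ℝ) (ζ : E2 → E2 → E2) : Prop where
  smooth : ContDiff ℝ ∞ (fun q : E2 × E2 => ζ q.1 q.2)
  grad : ∀ c : ℝ, 0 ≤ c → ∀ x v : E2, HasGradientAt (fun v => Φ c x v) (ζ v (x - c • v)) v
  symm : ∀ (q : E2 × E2) (a b : E2), ⟪dpZ ζ q a, b⟫_ℝ = ⟪a, dpZ ζ q b⟫_ℝ
  definite : ∃ sg : ℝ, (sg = 1 ∨ sg = -1) ∧ ∀ (q : E2 × E2) (a : E2),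
    K.a0 * ‖a‖ ^ 2 ≤ sg * ⟪dpZ ζ q a, a⟫_ℝ ∧ sg * ⟪dpZ ζ q a, a⟫_ℝ ≤ K.a1 * ‖a‖ ^ 2
  bound : ∀ (j : ℕ) (q : E2 × E2), ‖iteratedFDeriv ℝ j (dpZ ζ) q‖ ≤ K.A j

/-- the amplitude class -/
structure IsAmp (K : OscBd) (B : ℝ → E2 → E2 → ℂ) : Prop where
  supp : ∀ (c : ℝ) (x v : E2), B c x v ≠ 0 → c ∈ Set.Icc (0 : ℝ) 1 ∧ ‖x‖ ≤ K.Rx ∧ ‖v‖ ≤ K.Rv
  smooth : ∀ (c : ℝ) (x : E2), ContDiff ℝ ∞ (B c x)
  bound : ∀ (c : ℝ) (x : E2) (j : ℕ) (v : E2), ‖iteratedFDeriv ℝ j (B c x) v‖ ≤ K.Bb j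

/-- `E_λ f (c,x) = ∫ e^{i λ Φ(c,x,v)} B(c,x,v) f(v) dv` -/
noncomputable def Elam (lam : ℝ) (Φ : ℝ → E2 → E2 → ℝ) (B : ℝ → E2 → E2 → ℂ) (f : E2 → ℂ) (q : ℝ × E2) : ℂ :=
  ∫ v : E2, Complex.exp (Complex.I * ((lam * Φ q.1 q.2 v : ℝ) : ℂ)) * B q.1 q.2 v * f v

/-- **BR Theorem 12.1** -/
def OSC : Prop :=
  ∀ K : OscBd, 0 < K.a0 → ∀ ν : ℝ, 0 < ν → ∃ C : ℝ, ∀ lam : ℝ, 2 ≤ lam →
    ∀ (Φ : ℝ → E2 → E2 → ℝ) (ζ : E2 → E2 → E2), IsPhase K Φ ζ → ∀ B : ℝ → E2 → E2 → ℂ, IsAmp K B →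
      ∀ f : E2 → ℂ, MemLp f 3 volume → (∀ v, f v ≠ 0 → ‖v‖ ≤ K.Rv) →
        eLpNorm (Elam lam Φ B f) 3 volume ≤ ENNReal.ofReal (C * lam ^ (-1 + ν)) * eLpNorm f 3 volume

end Claimed.Agent.R255.Osc
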