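import Claimed.Agent.R255.Pk9.Score

/-!
# R255 / OSC / EndAbs : the two abstract entropy facts of BR Sec. 12        (architect helper17)   LEAVES L-OP-ABS1, L-OP-ABS2

Paper-free: finite laws (`Base/Law`), library `Ent/Basic`, `Pk9/Score` (`p9_logsum`, `p9_logsum_cond` are PROVED there).
* (ABS1) `oe_score_abs` (BR l.128-140 of Sec. 9 + l.75-95 of Sec. 12): total mass `≤ Mt`, cap masses `≤ Mc e^{-ℓ(a+b)}`  ⟹  score `≤ (log Mt + ½ log Mc)/ℓ`.
  PROOF: `H(O) + E log m ≤ log ∑_{S₀} m ≤ log Mt`; `H(O|D) + E log m ≤ E log ∑_{S(D)} m ≤ log Mc - ℓ E(a+b)`; add the first and half the second;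
  `½ ℓ E[(1+γ) b + (1-γ) a - a - b] = ½ ℓ γ E[b - a] ≤ 0`.   (`Real.log_le_log`, `Real.log_mul`, `Real.log_exp`, `ent_ev_mono`, `ent_ev_add`, `ent_ev_mul_left`, `ent_ev_const`.)
* (ABS2) `powLaw a` = the law `∝ a`; `oe_powLaw_logsum` : `H(id) + E log a = log ∑ a` (exact log-sum; `ent_fib_id`).
-/

set_option autoImplicit false

namespace Claimed.Agent.R255.Osc

open scoped BigOperators
open Classical
open Claimed.Agent.R255 FLaw

theorem oe_score_abs {Ω α β : Type} [Fintype Ω] (P : FLaw Ω) (O : Ω → α) (D : Ω → β) (m : α → ℝ)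
    (S₀ : Finset α) (S : β → Finset α) (a b : β → ℝ) (γ ℓ Mt Mc : ℝ) (hℓ : 0 < ℓ) (hγ : 0 ≤ γ)
    (hm : ∀ x, 0 ≤ m x) (hpos : ∀ o, P.p o ≠ 0 → 0 < m (O o))
    (hS₀ : ∀ o, P.p o ≠ 0 → O o ∈ S₀) (hS : ∀ o, P.p o ≠ 0 → O o ∈ S (D o))
    (hba : ∀ o, P.p o ≠ 0 → b (D o) ≤ a (D o))
    (hMt : ∑ x ∈ S₀, m x ≤ Mt)
    (hMc : ∀ o, P.p o ≠ 0 → ∑ x ∈ S (D o), m x ≤ Mc * Real.exp (-(ℓ * (a (D o) + b (D o))))) :
    (P.ent O + P.entC O D / 2) / ℓ + 3 / 2 * P.ev (fun o => Real.log (m (O o)) / ℓ)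
        + 1 / 2 * P.ev (fun o => (1 + γ) * b (D o) + (1 - γ) * a (D o))
      ≤ (Real.log Mt + 1 / 2 * Real.log Mc) / ℓ := by
  obtain ⟨o₀, ho₀⟩ := ent_exists_supp P
  have hsum0 : 0 < ∑ x ∈ S₀, m x :=
    lt_of_lt_of_le (hpos o₀ ho₀) (Finset.single_le_sum (fun x _ => hm x) (hS₀ o₀ ho₀))
  have hsum : ∀ o, P.p o ≠ 0 → 0 < ∑ x ∈ S (D o), m x := fun o ho =>
    lt_of_lt_of_le (hpos o ho) (Finset.single_le_sum (fun x _ => hm x) (hS o ho))
  have hMcpos : 0 < Mc := by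
    have h1 := (hsum o₀ ho₀).trans_le (hMc o₀ ho₀)
    by_contra hc
    exact absurd h1 (not_lt.2 (mul_nonpos_of_nonpos_of_nonneg (not_lt.1 hc) (Real.exp_pos _).le))
  have e1 : P.ent O + P.ev (fun o => Real.log (m (O o))) ≤ Real.log Mt :=
    (p9_logsum P O m S₀ hS₀ (fun x _ => hm x) hpos).trans (Real.log_le_log hsum0 hMt)
  have e2 : P.entC O D + P.ev (fun o => Real.log (m (O o))) ≤
      Real.log Mc - ℓ * P.ev (fun o => a (D o) + b (D o)) := by
    refine (p9_logsum_cond P O D m S hS hm hpos).trans ?_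
    rw [← ent_ev_const P (Real.log Mc), ← ent_ev_mul_left, ← ent_ev_sub]
    refine ent_ev_mono P fun o ho => ?_
    refine (Real.log_le_log (hsum o ho) (hMc o ho)).trans (le_of_eq ?_)
    rw [Real.log_mul hMcpos.ne' (Real.exp_pos _).ne', Real.log_exp]
    ring
  have e3 : P.ev (fun o => Real.log (m (O o)) / ℓ) = P.ev (fun o => Real.log (m (O o))) / ℓ := by
    rw [div_eq_mul_inv, mul_comm, ← ent_ev_mul_left]
    exact congrArg _ (funext fun o => by rw [div_eq_mul_inv, mul_comm])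
  have e4 : P.ev (fun o => (1 + γ) * b (D o) + (1 - γ) * a (D o)) ≤ P.ev (fun o => a (D o) + b (D o)) := by
    refine ent_ev_mono P fun o ho => ?_
    nlinarith [hba o ho]
  have e5 : (P.ent O + P.entC O D / 2) / ℓ + 3 / 2 * (P.ev (fun o => Real.log (m (O o))) / ℓ)
      + 1 / 2 * P.ev (fun o => a (D o) + b (D o)) ≤ (Real.log Mt + 1 / 2 * Real.log Mc) / ℓ := by
    rw [le_div_iff₀ hℓ]
    have e6 : ((P.ent O + P.entC O D / 2) / ℓ + 3 / 2 * (P.ev (fun o => Real.log (m (O o))) / ℓ)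
      + 1 / 2 * P.ev (fun o => a (D o) + b (D o))) * ℓ = P.ent O + P.entC O D / 2
        + 3 / 2 * P.ev (fun o => Real.log (m (O o))) + 1 / 2 * (ℓ * P.ev (fun o => a (D o) + b (D o))) := by
      field_simp
    rw [e6]
    linarith
  rw [e3]
  linarith

/-- the law proportional to a positive weight -/
noncomputable def powLaw {ι : Type} [Fintype ι] [Nonempty ι] (a : ι → ℝ) (ha : ∀ i, 0 < a i) : FLaw ι where
  p := fun i => a i / ∑ j, a j
  nonneg := fun i => div_nonneg (ha i).le (Finset.sum_nonneg fun j _ => (ha j).le)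
  sum_one := by
    rw [← Finset.sum_div]
    exact div_self (Finset.sum_pos (fun j _ => ha j) Finset.univ_nonempty).ne'

theorem oe_powLaw_pos {ι : Type} [Fintype ι] [Nonempty ι] (a : ι → ℝ) (ha : ∀ i, 0 < a i) (i : ι) :
    0 < (powLaw a ha).p i :=
  div_pos (ha i) (Finset.sum_pos (fun j _ => ha j) Finset.univ_nonempty)

theorem oe_powLaw_logsum {ι : Type} [Fintype ι] [Nonempty ι] (a : ι → ℝ) (ha : ∀ i, 0 < a i) :
    (powLaw a ha).ent (fun i => i) + (powLaw a ha).ev (fun i => Real.log (a i)) = Real.log (∑ j, a j) := by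
  have hs : 0 < ∑ j, a j := Finset.sum_pos (fun j _ => ha j) Finset.univ_nonempty
  unfold FLaw.ent
  rw [← ent_ev_add]
  have h1 : (powLaw a ha).ev (fun i => -Real.log ((powLaw a ha).fib (fun i => i) i) + Real.log (a i)) =
      (powLaw a ha).ev (fun _ => Real.log (∑ j, a j)) := by
    refine congrArg _ (funext fun i => ?_)
    rw [ent_fib_id]
    show -Real.log (a i / ∑ j, a j) + Real.log (a i) = _
    rw [Real.log_div (ha i).ne' hs.ne']
    ring
  rw [h1, ent_ev_const]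

end Claimed.Agent.R255.Osc
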