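-- KEEP
import Claimed.Agent.R255.Osc.Contract

/-!
# R255 / OSC / EndSum : the endpoint cubic packet sum (BR (12.endpoint-packet-sum))        (architect helper17)

`EndSum` is the ONLY interface between
* (I)  `R255/Osc/FromEnd*.lean`  : `EndSum → OSC`   (boxes of side `1/λ`, near-maximisers, level sets; Mathlib only), and
* (II) `R255/Osc/EndOfPkt*.lean` : packet growth (BR Thm 9.1) at `ε = 1/λ`, `t = ℏ = L = 1` + root Bessel (BR L9.2) `→ EndSum`.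

Statement: take a TRANSLATED LATTICE of mesh `1/λ` in `(c,x)`-space, `latPt lam q₀ k = q₀ + k/λ` (`k ∈ s ⊆ ℤ³`, offset `q₀` in the box `0`), points in `[0,1) × {‖x‖ ≤ Rx}`,
and an arbitrary amplitude `ψ k` of the class at each point.  Then for `|f| ≤ 1_F`
`∑_{k ∈ s} |∫ e^{i λ Φ(latPt k, v)} ψ k v f v dv|³ ≤ C λ^η |F|`.
(Translated lattices instead of the paper's near-maximisers: the sites then satisfy `multT`, `multS` of `Pkt/Base` with multiplicity one and NO anchor move / absorption of phases into amplitudes is needed;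
the `L³` norm is recovered by periodisation, `FromEndA3`.)
-/

set_option autoImplicit false

namespace Claimed.Agent.R255.Osc

open MeasureTheory
open scoped ContDiff

/-- the pairing of the input `f` with one endpoint packet: `∫ e^{i λ Φ(c,x,v)} ψ(v) f(v) dv` -/
noncomputable def opair (lam : ℝ) (Φ : ℝ → E2 → E2 → ℝ) (c : ℝ) (x : E2) (ψ f : E2 → ℂ) : ℂ :=
  ∫ v : E2, Complex.exp (Complex.I * ((lam * Φ c x v : ℝ) : ℂ)) * ψ v * f v

/-- indices of the boxes -/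
abbrev Z3 : Type := ℤ × ℤ × ℤ

/-- the index of the box of side `1/λ` which contains `q = (c, x)` -/
noncomputable def boxIdx (lam : ℝ) (q : ℝ × E2) : Z3 := (⌊lam * q.1⌋, ⌊lam * q.2 0⌋, ⌊lam * q.2 1⌋)

/-- the point of index `k` of the lattice of mesh `1/λ` translated by `q₀` -/
noncomputable def latPt (lam : ℝ) (q₀ : ℝ × E2) (k : Z3) : ℝ × E2 :=
  (q₀.1 + (k.1 : ℝ) / lam, q₀.2 + !₂[(k.2.1 : ℝ) / lam, (k.2.2 : ℝ) / lam])

/-- the class of the amplitudes `B(c,x,·)` -/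
structure IsEndAmp (K : OscBd) (ψ : E2 → ℂ) : Prop where
  supp : ∀ v : E2, ψ v ≠ 0 → ‖v‖ ≤ K.Rv
  smooth : ContDiff ℝ ∞ ψ
  bound : ∀ (j : ℕ) (v : E2), ‖iteratedFDeriv ℝ j ψ v‖ ≤ K.Bb j

/-- **BR (12.endpoint-packet-sum)** -/
def EndSum : Prop :=
  ∀ K : OscBd, 0 < K.a0 → ∀ η : ℝ, 0 < η → ∃ C : ℝ, ∀ lam : ℝ, 2 ≤ lam →
    ∀ (Φ : ℝ → E2 → E2 → ℝ) (ζ : E2 → E2 → E2), IsPhase K Φ ζ →
      ∀ (q₀ : ℝ × E2), boxIdx lam q₀ = 0 → ∀ (s : Finset Z3) (ψ : Z3 → E2 → ℂ),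
        (∀ k ∈ s, (latPt lam q₀ k).1 ∈ Set.Ico (0 : ℝ) 1 ∧ ‖(latPt lam q₀ k).2‖ ≤ K.Rx ∧ IsEndAmp K (ψ k)) →
        ∀ F : Set E2, MeasurableSet F → (∀ v ∈ F, ‖v‖ ≤ K.Rv) →
          ∀ f : E2 → ℂ, Measurable f → (∀ v, ‖f v‖ ≤ F.indicator (fun _ => (1 : ℝ)) v) →
            ∑ k ∈ s, ‖opair lam Φ (latPt lam q₀ k).1 (latPt lam q₀ k).2 (ψ k) f‖ ^ 3
              ≤ C * lam ^ η * (volume F).toReal

theorem boxIdx_latPt {lam : ℝ} (hlam : 0 < lam) {q₀ : ℝ × E2} (h0 : boxIdx lam q₀ = 0) (k : Z3) :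
    boxIdx lam (latPt lam q₀ k) = k := by
  have e : ∀ (a : ℝ) (n : ℤ), ⌊lam * a⌋ = 0 → ⌊lam * (a + (n : ℝ) / lam)⌋ = n := by
    intro a n ha
    have : lam * (a + (n : ℝ) / lam) = lam * a + n := by field_simp
    rw [this, Int.floor_add_intCast, ha, zero_add]
  simp only [boxIdx, Prod.ext_iff, Prod.fst_zero, Prod.snd_zero] at h0
  obtain ⟨h1, h2, h3⟩ := h0
  obtain ⟨k1, k2, k3⟩ := k
  simp only [boxIdx, latPt, Prod.mk.injEq]
  refine ⟨e _ _ h1, ?_, ?_⟩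
  · simpa using e _ k2 h2
  · simpa using e _ k3 h3

theorem Elam_eq_opair (lam : ℝ) (Φ : ℝ → E2 → E2 → ℝ) (B : ℝ → E2 → E2 → ℂ) (f : E2 → ℂ) (q : ℝ × E2) :
    Elam lam Φ B f q = opair lam Φ q.1 q.2 (B q.1 q.2) f := rfl

theorem IsAmp.isEndAmp {K : OscBd} {B : ℝ → E2 → E2 → ℂ} (hB : IsAmp K B) (c : ℝ) (x : E2) :
    IsEndAmp K (B c x) :=
  ⟨fun v hv => (hB.supp c x v hv).2.2, hB.smooth c x, hB.bound c x⟩

end Claimed.Agent.R255.Osc
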