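-- KEEP
import Claimed.Agent.R255.Osc.EndSum
import Claimed.Agent.R255.Pkt.Base

/-!
# R255 / OSC / EndEnv : the endpoint environment and the endpoint test        (architect helper17)   DEFINITIONS + LEAF L-OP-ENV

Part (II) of `osc_of_prate` : packet growth at `ε = 1/λ`, `H = L = t = 1`  ⟹  `EndSum`.
* `endEnv lam Φ ζ f` : the environment `(ε, H, L) = (λ⁻¹, 1, 1)`.   `E.lam = λ`, `ρ_1 = 1`, `σ_1 = λ⁻¹`, `u_0 = 1/2`, `ρ_0 = σ_0 = λ^(-1/2)`, `lg ε = log λ`.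
* `endSite lam q₀ ψ k = (C, V, X, ψ) = ((latPt k).1, 0, (latPt k).2, ψ k)`;  its mass at `t = 1` is `‖opair‖²`.
* `endBd K` : the bound package (`Ra = Rv`, `Mu = 1`, `Ke = 1`, `Hmax = Lmax = tmin = 1`, `M = 10`).
-/

set_option autoImplicit false

namespace Claimed.Agent.R255.Osc

open MeasureTheory Claimed.Agent.R255.Pkt
open scoped ContDiff

/-- the endpoint environment -/
noncomputable def endEnv (lam : ℝ) (Φ : ℝ → E2 → E2 → ℝ) (ζ : E2 → E2 → E2) (f : E2 → ℂ) : PEnv where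
  ε := lam⁻¹
  H := 1
  L := 1
  Φ := Φ
  ζ := ζ
  f := f

/-- the endpoint sites -/
noncomputable def endSite (lam : ℝ) (q₀ : ℝ × E2) (ψ : Z3 → E2 → ℂ) (k : Z3) : Site where
  C := (latPt lam q₀ k).1
  V := 0
  X := (latPt lam q₀ k).2
  ψ := ψ k

/-- the bound package of the endpoint systems -/
def endBd (K : OscBd) : PBd where
  K := K
  Ra := K.Rv
  Mu := 1
  Ke := 1
  Hmax := 1
  Lmax := 1
  tmin := 1
  M := 10

theorem endBd_good {K : OscBd} (h0 : 0 < K.a0) : (endBd K).Good :=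
  ⟨h0, one_pos, le_refl _⟩

variable (lam : ℝ) (Φ : ℝ → E2 → E2 → ℝ) (ζ : E2 → E2 → E2) (f : E2 → ℂ)

theorem endEnv_lam (hlam : 0 < lam) : (endEnv lam Φ ζ f).lam = lam := by
  show (lam⁻¹ : ℝ) ^ (-(1 : ℝ)) = lam
  rw [Real.rpow_neg (inv_nonneg.2 hlam.le), Real.rpow_one, inv_inv]

theorem endEnv_lg : lg (endEnv lam Φ ζ f).ε = Real.log lam := by
  show Real.log (1 / lam⁻¹) = Real.log lam
  rw [one_div, inv_inv]

theorem endEnv_u_one : (endEnv lam Φ ζ f).u 1 = 0 := by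
  show ((1 : ℝ) - 1) / 2 = 0
  norm_num

theorem endEnv_rho_one : (endEnv lam Φ ζ f).rho 1 = 1 := by
  show (lam⁻¹ : ℝ) ^ (((1 : ℝ) - 1) / 2) = 1
  norm_num

theorem endEnv_sig_one (hlam : 0 < lam) : (endEnv lam Φ ζ f).sig 1 = lam⁻¹ := by
  show (lam⁻¹ : ℝ) ^ (((1 : ℝ) - 1) / 2 + 1) = lam⁻¹
  norm_num

theorem endEnv_u_zero : (endEnv lam Φ ζ f).u 0 = 1 / 2 := by
  show ((1 : ℝ) - 0) / 2 = 1 / 2
  norm_num

/-- `ρ_0 ∈ (0,1]` -/
theorem endEnv_rho_zero_pos (hlam : 1 ≤ lam) :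
    0 < (endEnv lam Φ ζ f).rho 0 ∧ (endEnv lam Φ ζ f).rho 0 ≤ 1 := by
  have h0 : 0 < lam := lt_of_lt_of_le one_pos hlam
  constructor
  · exact Real.rpow_pos_of_pos (inv_pos.2 h0) _
  · show (lam⁻¹ : ℝ) ^ (((1 : ℝ) - 0) / 2) ≤ 1
    exact Real.rpow_le_one (inv_nonneg.2 h0.le) (inv_le_one_of_one_le₀ hlam) (by norm_num)

/-- `σ_0 = (λ ρ_0)⁻¹ = ρ_0` -/
theorem endEnv_rho_zero_inv (hlam : 0 < lam) :
    (lam * (endEnv lam Φ ζ f).rho 0)⁻¹ = (endEnv lam Φ ζ f).rho 0 := by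
  show (lam * (lam⁻¹ : ℝ) ^ (((1 : ℝ) - 0) / 2))⁻¹ = (lam⁻¹ : ℝ) ^ (((1 : ℝ) - 0) / 2)
  have hs : 0 < lam ^ (((1 : ℝ) - 0) / 2) := Real.rpow_pos_of_pos hlam _
  have hss : lam ^ (((1 : ℝ) - 0) / 2) * lam ^ (((1 : ℝ) - 0) / 2) = lam := by
    rw [← Real.rpow_add hlam]
    norm_num
  rw [Real.inv_rpow hlam.le]
  generalize lam ^ (((1 : ℝ) - 0) / 2) = s at hs hss
  rw [← hss]
  field_simp

/-- `ρ_0 ≤ ε^a` for `a ≤ 1/2` -/
theorem endEnv_rho_zero_le (hlam : 1 ≤ lam) {a : ℝ} (ha : a ≤ 1 / 2) :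
    (endEnv lam Φ ζ f).rho 0 ≤ (endEnv lam Φ ζ f).ε ^ a := by
  have h0 : 0 < lam := lt_of_lt_of_le one_pos hlam
  show (lam⁻¹ : ℝ) ^ (((1 : ℝ) - 0) / 2) ≤ (lam⁻¹ : ℝ) ^ a
  exact Real.rpow_le_rpow_of_exponent_ge (inv_pos.2 h0) (inv_le_one_of_one_le₀ hlam) (by linarith)

/-- the mass of an endpoint site is the square of the endpoint pairing -/
theorem endEnv_mass (hlam : 0 < lam) (q₀ : ℝ × E2) (ψ : Z3 → E2 → ℂ) (k : Z3) :
    (endEnv lam Φ ζ f).m 1 (endSite lam q₀ ψ k)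
      = ‖opair lam Φ (latPt lam q₀ k).1 (latPt lam q₀ k).2 (ψ k) f‖ ^ 2 := by
  unfold PEnv.m mass
  rw [endEnv_lam _ _ _ _ hlam, endEnv_rho_one]
  congr 2
  unfold pairing opair
  simp only [endSite, endEnv, inv_one, Complex.ofReal_one, one_mul, sub_zero, one_smul]
  refine integral_congr_ae (Filter.Eventually.of_forall fun v => ?_)
  simp only
  ring

/-- the endpoint environment obeys the bounds -/
theorem endEnv_obeys {K : OscBd} (hlam : 1 < lam) (hΦ : IsPhase K Φ ζ) (hf : MemLp f 2 volume)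
    (hfs : ∀ v, f v ≠ 0 → ‖v‖ ≤ K.Rv) : (endEnv lam Φ ζ f).Obeys (endBd K) := by
  have h0 : 0 < lam := lt_trans one_pos hlam
  exact ⟨inv_pos.2 h0, inv_lt_one_of_one_lt₀ hlam, one_pos, le_refl _, le_refl _, hΦ, hf, hfs⟩

end Claimed.Agent.R255.Osc
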