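import Claimed.Agent.R255.Osc.EndEnv
import Claimed.Agent.R255.Osc.EndAbs

/-!
# R255 / OSC / EndTest : the endpoint test        (architect helper17)   LEAVES L-OP-TEST1, L-OP-TEST2

`endTest lam q₀ ψ s P` : sites `endSite lam q₀ ψ k` (`k ∈ s`), sample space = index set = label set = `{k // k ∈ s}`, `O = D = id`, law `P`, duration `1`,
read-out `(b, a, tc, th, vc, xc) = (0, 0, C, 0, 0, X)`.
* TEST1 `endTest_obeys` : it obeys `endBd K`.  `multT` : the time anchors are `q₀.1 + k.1/λ`; `|C_j - C_i| < ε^1 = 1/λ` forces `k_j.1 = k_i.1`, so the filtered image is `⊆ {C_i}`.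
  `multS` : `C_j = C_i` and `‖X_j - X_i‖ < σ_1 = 1/λ` force `k_j = k_i` (`|x 0|, |x 1| ≤ ‖x‖`), so the filter is `⊆ {i}`.   `geo` : all numbers vanish (`endEnv_u_one`).   `mpos` : `endEnv_mass`.
* TEST2 `endTest_score` : `H(O|D) = 0` (`ent_entC_eq_zero`), `wt = 0`, `(3/2) log ‖z‖² = log ‖z‖³`, `lg ε = log λ`.
-/

set_option autoImplicit false

namespace Claimed.Agent.R255.Osc

open MeasureTheory Claimed.Agent.R255 Claimed.Agent.R255.Pkt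

/-- the endpoint test -/
noncomputable def endTest (lam : ℝ) (q₀ : ℝ × E2) (ψ : Z3 → E2 → ℂ) (s : Finset Z3)
    (P : FLaw {k // k ∈ s}) : PTest where
  t := 1
  Ω := {k // k ∈ s}
  finΩ := inferInstance
  P := P
  ι := {k // k ∈ s}
  finι := inferInstance
  site := fun i => endSite lam q₀ ψ i.1
  O := fun i => i
  Γ := {k // k ∈ s}
  D := fun i => i
  geo := fun i => ⟨0, 0, (latPt lam q₀ i.1).1, 0, (0, 0), toP (latPt lam q₀ i.1).2⟩

/-- two points of a translated lattice of mesh `1/λ` at distance `< 1/λ` have the same index -/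
theorem oe_int_sep {lam : ℝ} (h0 : 0 < lam) (x : ℝ) (a b : ℤ)
    (h : |(x + (a : ℝ) / lam) - (x + (b : ℝ) / lam)| < lam⁻¹) : a = b := by
  have e : (x + (a : ℝ) / lam) - (x + (b : ℝ) / lam) = ((a - b : ℤ) : ℝ) * lam⁻¹ := by
    push_cast
    ring
  rw [e, abs_mul, abs_of_pos (inv_pos.2 h0)] at h
  have h2 : |((a - b : ℤ) : ℝ)| < 1 := by
    by_contra hc
    push Not at hc
    nlinarith [inv_pos.2 h0]
  rw [← Int.cast_abs] at h2
  have h3 : |a - b| < 1 := by exact_mod_cast h2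
  have := Int.abs_lt_one_iff.1 h3
  omega

theorem endTest_obeys {K : OscBd} (lam : ℝ) (hlam : 1 < lam) (Φ : ℝ → E2 → E2 → ℝ) (ζ : E2 → E2 → E2)
    (f : E2 → ℂ) (q₀ : ℝ × E2) (ψ : Z3 → E2 → ℂ) (s : Finset Z3) (P : FLaw {k // k ∈ s})
    (hRv : 0 ≤ K.Rv)
    (hs : ∀ k ∈ s, (latPt lam q₀ k).1 ∈ Set.Ico (0 : ℝ) 1 ∧ ‖(latPt lam q₀ k).2‖ ≤ K.Rx ∧ IsEndAmp K (ψ k))
    (hpos : ∀ k ∈ s, opair lam Φ (latPt lam q₀ k).1 (latPt lam q₀ k).2 (ψ k) f ≠ 0) :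
    (endTest lam q₀ ψ s P).Obeys (endBd K) (endEnv lam Φ ζ f) := by
  classical
  have h0 : 0 < lam := lt_trans one_pos hlam
  have hε : (endEnv lam Φ ζ f).ε ^ (1 : ℝ) = lam⁻¹ := Real.rpow_one _
  refine ⟨le_refl _, fun i _ => ?_, fun i _ => ?_, fun i _ => ?_, fun i _ => ?_, fun i _ => ?_, fun i _ => ?_,
    fun o _ => ?_, fun o _ => ?_⟩
  · exact ⟨(hs i.1 i.2).2.2.smooth, (hs i.1 i.2).2.2.supp, (hs i.1 i.2).2.2.bound⟩
  · exact ⟨(hs i.1 i.2).1.1, (hs i.1 i.2).1.2⟩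
  · show ‖(0 : E2)‖ ≤ K.Rv
    rw [norm_zero]
    exact hRv
  · exact (hs i.1 i.2).2.1
  · refine (Finset.card_le_card (t := {((endTest lam q₀ ψ s P).site i).C}) ?_).trans (by simp [endBd])
    intro c hc
    rw [Finset.mem_filter, Finset.mem_image] at hc
    obtain ⟨⟨j, -, rfl⟩, hlt⟩ := hc
    rw [Finset.mem_singleton]
    have hlt' : |(q₀.1 + (j.1.1 : ℝ) / lam) - (q₀.1 + (i.1.1 : ℝ) / lam)| < lam⁻¹ := by
      rw [← hε]
      exact hlt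
    have := oe_int_sep h0 _ _ _ hlt'
    show q₀.1 + (j.1.1 : ℝ) / lam = q₀.1 + (i.1.1 : ℝ) / lam
    rw [this]
  · refine (Finset.card_le_card (t := {i}) ?_).trans (by simp [endBd])
    intro j hj
    obtain ⟨-, -, hC, -, hX⟩ := Finset.mem_filter.1 hj
    rw [Finset.mem_singleton]
    have hC' : q₀.1 + (j.1.1 : ℝ) / lam = q₀.1 + (i.1.1 : ℝ) / lam := hC
    have hX' : ‖(q₀.2 + !₂[(j.1.2.1 : ℝ) / lam, (j.1.2.2 : ℝ) / lam]) -
        (q₀.2 + !₂[(i.1.2.1 : ℝ) / lam, (i.1.2.2 : ℝ) / lam])‖ < lam⁻¹ := by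
      rw [← endEnv_sig_one lam Φ ζ f h0]
      exact hX
    have k1 : j.1.1 = i.1.1 := oe_int_sep h0 q₀.1 _ _ (by
      rw [hC', sub_self, abs_zero]
      exact inv_pos.2 h0)
    have k2 : j.1.2.1 = i.1.2.1 := oe_int_sep h0 (q₀.2 0) _ _ (by
      refine lt_of_le_of_lt ?_ hX'
      have := PiLp.norm_apply_le ((q₀.2 + !₂[(j.1.2.1 : ℝ) / lam, (j.1.2.2 : ℝ) / lam]) -
        (q₀.2 + !₂[(i.1.2.1 : ℝ) / lam, (i.1.2.2 : ℝ) / lam])) 0
      simpa using this)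
    have k3 : j.1.2.2 = i.1.2.2 := oe_int_sep h0 (q₀.2 1) _ _ (by
      refine lt_of_le_of_lt ?_ hX'
      have := PiLp.norm_apply_le ((q₀.2 + !₂[(j.1.2.1 : ℝ) / lam, (j.1.2.2 : ℝ) / lam]) -
        (q₀.2 + !₂[(i.1.2.1 : ℝ) / lam, (i.1.2.2 : ℝ) / lam])) 1
      simpa using this)
    exact Subtype.ext (Prod.ext k1 (Prod.ext k2 k3))
  · show 0 < (endEnv lam Φ ζ f).m 1 (endSite lam q₀ ψ o.1)
    rw [endEnv_mass _ _ _ _ h0]
    exact pow_pos (norm_pos_iff.2 (hpos o.1 o.2)) 2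
  · have hε0 : 0 < (endEnv lam Φ ζ f).ε := inv_pos.2 h0
    refine ⟨le_refl _, le_refl _, ?_, ?_, rfl, ⟨?_, ?_⟩, ⟨?_, ?_⟩⟩
    · show (0 : ℝ) ≤ 1 - 1
      norm_num
    · show (0 : ℝ) ≤ (endEnv lam Φ ζ f).u 1
      rw [endEnv_u_one]
    · show |ip (toP (0 : E2) - (0, 0)) (tang 0)| ≤ 1 * (endEnv lam Φ ζ f).ε ^ (0 : ℝ)
      simp [ip, toP]
    · show |ip (toP (0 : E2) - (0, 0)) (nrm 0)| ≤ 1 * (endEnv lam Φ ζ f).ε ^ (0 : ℝ)
      simp [ip, toP]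
    · show |ip (toP (latPt lam q₀ o.1).2 - toP (latPt lam q₀ o.1).2) (tang 0)| ≤
        1 * (endEnv lam Φ ζ f).ε ^ ((0 : ℝ) + 1)
      rw [sub_self]
      have := Real.rpow_pos_of_pos hε0 ((0 : ℝ) + 1)
      simp only [ip, Prod.fst_zero, Prod.snd_zero, zero_mul, add_zero, abs_zero, one_mul]
      exact this.le
    · show |ip (toP (latPt lam q₀ o.1).2 - toP (latPt lam q₀ o.1).2) (nrm 0)| ≤
        1 * (endEnv lam Φ ζ f).ε ^ ((0 : ℝ) + 1)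
      rw [sub_self]
      have := Real.rpow_pos_of_pos hε0 ((0 : ℝ) + 1)
      simp only [ip, Prod.fst_zero, Prod.snd_zero, zero_mul, add_zero, abs_zero, one_mul]
      exact this.le

theorem endTest_score (γ lam : ℝ) (hlam : 1 < lam) (Φ : ℝ → E2 → E2 → ℝ) (ζ : E2 → E2 → E2)
    (f : E2 → ℂ) (q₀ : ℝ × E2) (ψ : Z3 → E2 → ℂ) (s : Finset Z3) (P : FLaw {k // k ∈ s}) :
    score γ (endEnv lam Φ ζ f) (endTest lam q₀ ψ s P)
      = (P.ent (fun i => i) + P.ev (fun i => Real.log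
          (‖opair lam Φ (latPt lam q₀ i.1).1 (latPt lam q₀ i.1).2 (ψ i.1) f‖ ^ 3))) / Real.log lam := by
  have h0 : 0 < lam := lt_trans one_pos hlam
  have e1 : P.entC (fun i : {k // k ∈ s} => i) (fun i => i) = 0 :=
    ent_entC_eq_zero P _ _ fun _ _ _ _ h => h
  have e2 : P.ev (fun o : {k // k ∈ s} => wt γ (⟨0, 0, (latPt lam q₀ o.1).1, 0, (0, 0), toP (latPt lam q₀ o.1).2⟩ : Geo)) = 0 := by
    have : (fun o : {k // k ∈ s} => wt γ (⟨0, 0, (latPt lam q₀ o.1).1, 0, (0, 0), toP (latPt lam q₀ o.1).2⟩ : Geo))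
        = fun _ => (0 : ℝ) := by
      funext o
      simp [wt]
    rw [this, ent_ev_const]
  have e3 : P.ev (fun o : {k // k ∈ s} => Real.log ((endEnv lam Φ ζ f).m 1 (endSite lam q₀ ψ o.1)) / Real.log lam)
      = 2 / 3 * (P.ev (fun i : {k // k ∈ s} => Real.log
          (‖opair lam Φ (latPt lam q₀ i.1).1 (latPt lam q₀ i.1).2 (ψ i.1) f‖ ^ 3)) / Real.log lam) := by
    have e4 : 2 / 3 * (P.ev (fun i : {k // k ∈ s} => Real.log
          (‖opair lam Φ (latPt lam q₀ i.1).1 (latPt lam q₀ i.1).2 (ψ i.1) f‖ ^ 3)) / Real.log lam) =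
        (2 / 3 * (Real.log lam)⁻¹) * P.ev (fun i : {k // k ∈ s} => Real.log
          (‖opair lam Φ (latPt lam q₀ i.1).1 (latPt lam q₀ i.1).2 (ψ i.1) f‖ ^ 3)) := by ring
    rw [e4, ← ent_ev_mul_left]
    refine congrArg _ (funext fun o => ?_)
    rw [endEnv_mass _ _ _ _ h0, Real.log_pow, Real.log_pow, div_eq_mul_inv]
    push_cast
    ring
  show (P.ent (fun i : {k // k ∈ s} => i) + P.entC (fun i : {k // k ∈ s} => i) (fun i => i) / 2) / lg (endEnv lam Φ ζ f).ε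
    + 3 / 2 * P.ev (fun o : {k // k ∈ s} => Real.log ((endEnv lam Φ ζ f).m 1 (endSite lam q₀ ψ o.1)) / lg (endEnv lam Φ ζ f).ε)
    + 1 / 2 * P.ev (fun o : {k // k ∈ s} => wt γ (⟨0, 0, (latPt lam q₀ o.1).1, 0, (0, 0), toP (latPt lam q₀ o.1).2⟩ : Geo)) = _
  rw [endEnv_lg, e1, e2, e3]
  ring

end Claimed.Agent.R255.Osc
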