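import Claimed.Agent.R255.Osc.FromEndA1

/-!
# R255 / OSC / FromEndA3 : the `L³` norm by periodisation over the lattice of mesh `1/λ`        (architect helper17)   LEAF L-OE-A3

Paper-free, Mathlib only (uses `oe_boxIdx_measurable`, `oe_box_volume` of FromEndA1 as black boxes, and `boxIdx_latPt` of EndSum).   NO measurability of `h` is assumed.
If `∑_{k ∈ s} ‖h (q₀ + k/λ)‖³ ≤ M` for every offset `q₀` in the box `0` and every finite `s ⊆ ℤ³`, then `∫⁻ ‖h‖³ ≤ M / λ³`.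
PROOF.  `exists_measurable_le_lintegral_eq` : there is a MEASURABLE `g ≤ ‖h‖ₑ³` with `∫⁻ g = ∫⁻ ‖h‖ₑ³`.   Boxes `Q k = boxIdx lam ⁻¹' {k}` : measurable, pairwise disjoint, union `univ`:
`∫⁻ g = ∑' k, ∫⁻_{Q k} g`  (`lintegral_iUnion`, or `lintegral_tsum` of indicators).   `Q k = {q | q - latPt lam 0 k ∈ Q 0}` and `latPt lam q₀ k = q₀ + latPt lam 0 k`; translation invariance of `volume` on `ℝ × E2`
(`measurePreserving_add_right`, `MeasurePreserving.setLIntegral_comp_preimage`/`_emb`) : `∫⁻_{Q k} g = ∫⁻_{q₀ ∈ Q 0} g (latPt lam q₀ k)`.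
`∑' k ∫⁻_{Q 0} … = ∫⁻_{Q 0} ∑' k g (latPt lam q₀ k)`  (`lintegral_tsum`) `≤ ∫⁻_{Q 0} ofReal M = ofReal M * vol (Q 0)`;  pointwise bound: `ENNReal.tsum_eq_iSup_sum`, `g ≤ ‖h‖ₑ³`, `hM`.
-/

set_option autoImplicit false

namespace Claimed.Agent.R255.Osc

open MeasureTheory

/-- `latPt` is a translation -/
theorem oe_latPt_eq_add (lam : ℝ) (q₀ : ℝ × E2) (k : Z3) : latPt lam q₀ k = q₀ + latPt lam 0 k :=
  Prod.ext (by simp [latPt]) (by simp [latPt])

/-- the box index of a translated point -/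
theorem oe_boxIdx_latPt_add {lam : ℝ} (hlam : 0 < lam) (q : ℝ × E2) (k : Z3) :
    boxIdx lam (latPt lam q k) = boxIdx lam q + k := by
  have e : ∀ (a : ℝ) (n : ℤ), ⌊lam * (a + (n : ℝ) / lam)⌋ = ⌊lam * a⌋ + n := by
    intro a n
    have : lam * (a + (n : ℝ) / lam) = lam * a + n := by field_simp
    rw [this, Int.floor_add_intCast]
  obtain ⟨k0, k1, k2⟩ := k
  simp only [boxIdx, latPt, Prod.mk_add_mk, Prod.mk.injEq]
  refine ⟨e _ _, ?_, ?_⟩
  · have : (q.2 + !₂[(k1 : ℝ) / lam, (k2 : ℝ) / lam]) 0 = q.2 0 + (k1 : ℝ) / lam := by simp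
    rw [this, e]
  · have : (q.2 + !₂[(k1 : ℝ) / lam, (k2 : ℝ) / lam]) 1 = q.2 1 + (k2 : ℝ) / lam := by simp
    rw [this, e]

theorem oe_box_lintegral_le (lam : ℝ) (hlam : 1 ≤ lam) (h : ℝ × E2 → ℂ) (M : ℝ)
    (hM : ∀ q₀ : ℝ × E2, boxIdx lam q₀ = 0 → ∀ s : Finset Z3, ∑ k ∈ s, ‖h (latPt lam q₀ k)‖ ^ 3 ≤ M) :
    ∫⁻ q, ‖h q‖ₑ ^ (3 : ℝ) ≤ ENNReal.ofReal (M / lam ^ 3) := by
  classical
  have hlam0 : 0 < lam := lt_of_lt_of_le one_pos hlam
  have hM0 : 0 ≤ M := by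
    have := hM 0 (by simp [boxIdx]) ∅
    simpa using this
  obtain ⟨g, hgm, hgle, hgeq⟩ := exists_measurable_le_lintegral_eq (volume : Measure (ℝ × E2))
    (fun q => ‖h q‖ₑ ^ (3 : ℝ))
  set Q : Z3 → Set (ℝ × E2) := fun k => boxIdx lam ⁻¹' {k} with hQ
  have hQm : ∀ k, MeasurableSet (Q k) := fun k => oe_boxIdx_measurable lam (measurableSet_singleton k)
  have hQd : Pairwise (Function.onFun Disjoint Q) := fun k k' hkk' => by
    refine Set.disjoint_left.2 fun q hq hq' => hkk' ?_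
    have h1 : boxIdx lam q = k := hq
    have h2 : boxIdx lam q = k' := hq'
    rw [← h1, h2]
  have hQu : ⋃ k, Q k = Set.univ := Set.eq_univ_of_forall fun q => Set.mem_iUnion.2 ⟨boxIdx lam q, rfl⟩
  have htr : ∀ k, ∫⁻ q in Q k, g q = ∫⁻ q in Q 0, g (latPt lam q k) := fun k => by
    have hinv : (volume : Measure (ℝ × E2)).IsAddRightInvariant := by
      rw [Measure.volume_eq_prod]; infer_instance
    have hmp : MeasurePreserving (fun q : ℝ × E2 => q + latPt lam 0 k) volume volume :=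
      measurePreserving_add_right volume _
    have hpre : (fun q : ℝ × E2 => q + latPt lam 0 k) ⁻¹' Q k = Q 0 := by
      ext q
      simp only [hQ, Set.mem_preimage, Set.mem_singleton_iff]
      rw [← oe_latPt_eq_add, oe_boxIdx_latPt_add hlam0]
      constructor
      · intro h1
        exact add_eq_right.1 h1
      · intro h1
        rw [h1, zero_add]
    rw [← hmp.setLIntegral_comp_preimage (hQm k) hgm, hpre]
    refine lintegral_congr fun q => ?_
    rw [oe_latPt_eq_add lam q k]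
  have hpt : ∀ q ∈ Q 0, ∑' k, g (latPt lam q k) ≤ ENNReal.ofReal M := fun q hq => by
    rw [ENNReal.tsum_eq_iSup_sum]
    refine iSup_le fun s => ?_
    have e3 : (3 : ℝ) = ((3 : ℕ) : ℝ) := by norm_num
    calc ∑ k ∈ s, g (latPt lam q k) ≤ ∑ k ∈ s, ENNReal.ofReal (‖h (latPt lam q k)‖ ^ 3) := by
          refine Finset.sum_le_sum fun k _ => (hgle _).trans (le_of_eq ?_)
          simp only
          rw [e3, ENNReal.rpow_natCast, ← ofReal_norm, ← ENNReal.ofReal_pow (norm_nonneg _)]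
      _ = ENNReal.ofReal (∑ k ∈ s, ‖h (latPt lam q k)‖ ^ 3) :=
          (ENNReal.ofReal_sum_of_nonneg fun k _ => pow_nonneg (norm_nonneg _) 3).symm
      _ ≤ ENNReal.ofReal M := ENNReal.ofReal_le_ofReal (hM q hq s)
  have hlm : ∀ k, Measurable fun q : ℝ × E2 => g (latPt lam q k) := fun k => by
    have e : (fun q : ℝ × E2 => g (latPt lam q k)) = fun q => g (q + latPt lam 0 k) :=
      funext fun q => by rw [oe_latPt_eq_add lam q k]
    rw [e]
    exact hgm.comp (measurable_id.add_const _)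
  calc ∫⁻ q, ‖h q‖ₑ ^ (3 : ℝ) = ∫⁻ q, g q := hgeq
    _ = ∫⁻ q in ⋃ k, Q k, g q := by rw [hQu, Measure.restrict_univ]
    _ = ∑' k, ∫⁻ q in Q k, g q := lintegral_iUnion hQm hQd g
    _ = ∑' k, ∫⁻ q in Q 0, g (latPt lam q k) := by simp only [htr]
    _ = ∫⁻ q in Q 0, ∑' k, g (latPt lam q k) := (lintegral_tsum fun k => (hlm k).aemeasurable).symm
    _ ≤ ∫⁻ _q in Q 0, ENNReal.ofReal M := setLIntegral_mono' (hQm 0) hpt
    _ = ENNReal.ofReal M * ENNReal.ofReal (1 / lam ^ 3) := by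
        rw [setLIntegral_const, oe_box_volume lam hlam0 0]
    _ = ENNReal.ofReal (M / lam ^ 3) := by
        rw [← ENNReal.ofReal_mul hM0]
        congr 1
        ring

end Claimed.Agent.R255.Osc
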