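import Mathlib

/-!
# R255 / OSC / FromEndB : restricted type ⟹ strong type with a logarithmic loss        (architect helper17)   LEAF L-OE-B

Paper-free, Mathlib only.  `(α, μ)` finite measure space, `w k` (`k ∈ s`) bounded weights, `ℓ_k f = ∫ w k * f`.
HYPOTHESIS (restricted type): `∑_k |ℓ_k g|³ ≤ D μ(F)` whenever `|g| ≤ 1_F`.
CONCLUSION: `∑_k |ℓ_k f|³ ≤ (2J+2)² (8 D + #s b³ (μ(univ)³ 2^{-3J} + 2^{-6J})) ∫ |f|³`  for every `J`.

PROOF.  `T = ∫|f|³`.  `T = 0`: `f = 0` a.e., both sides vanish.  `T > 0`: by homogeneity (`f ↦ f / T^{1/3}`) assume `T = 1`.  Split `f` into `n = 2J+2` pieces: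
`low = f 1_{|f| ≤ 2^{-J}}`, `f_j = f 1_{F_j}`, `F_j = {2^j < |f| ≤ 2^{j+1}}` (`-J ≤ j < J`), `high = f 1_{|f| > 2^J}`.   `ℓ_k f = ∑ ℓ_k(piece)` and
`|∑_{pieces} a|³ ≤ n² ∑ |a|³`  (`inner_le_nnorm_mul_nnorm` / `Real.pow_sum_div_card_le_sum_pow`).
* `|ℓ_k low| ≤ b 2^{-J} μ(univ)`;   * `|ℓ_k high| ≤ b ∫_{|f|>2^J} |f| ≤ b 2^{-2J} ∫|f|³ = b 2^{-2J}`;
* `∑_k |ℓ_k f_j|³ = 2^{3(j+1)} ∑_k |ℓ_k (f_j / 2^{j+1})|³ ≤ 2^{3(j+1)} D μ(F_j) ≤ 8 D ∫_{F_j} |f|³`, and the `F_j` are disjoint.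
-/

set_option autoImplicit false

namespace Claimed.Agent.R255.Osc

open MeasureTheory

/-- telescoping of set integrals along an increasing finite chain of sets from `∅` to `univ` -/
theorem oe_tele {α : Type*} [MeasurableSpace α] (μ : Measure α) {E : Type*} [NormedAddCommGroup E]
    [NormedSpace ℝ E] (H : ℕ → Set α) (hH : ∀ i, MeasurableSet (H i)) (n : ℕ)
    (hmono : ∀ i < n, H i ⊆ H (i + 1)) (h0 : H 0 = ∅) (hn : H n = Set.univ)
    (φ : α → E) (hφ : Integrable φ μ) :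
    ∫ a, φ a ∂μ = ∑ i ∈ Finset.range n, ∫ a in H (i + 1) \ H i, φ a ∂μ := by
  have h1 : ∀ i ∈ Finset.range n, ∫ a in H (i + 1) \ H i, φ a ∂μ =
      (∫ a in H (i + 1), φ a ∂μ) - ∫ a in H i, φ a ∂μ := fun i hi =>
    setIntegral_sdiff (hH i) hφ.integrableOn (hmono i (Finset.mem_range.1 hi))
  rw [Finset.sum_congr rfl h1, Finset.sum_range_sub (fun i => ∫ a in H i, φ a ∂μ), h0, hn]
  simp

theorem oe_strong_of_restricted {α : Type*} [MeasurableSpace α] (μ : Measure α) [IsFiniteMeasure μ]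
    {ι : Type*} (s : Finset ι) (w : ι → α → ℂ) (b D : ℝ) (hb0 : 0 ≤ b) (hD0 : 0 ≤ D)
    (hw : ∀ k ∈ s, AEStronglyMeasurable (w k) μ) (hb : ∀ k ∈ s, ∀ a, ‖w k a‖ ≤ b)
    (hD : ∀ F : Set α, MeasurableSet F → ∀ g : α → ℂ, Measurable g →
      (∀ a, ‖g a‖ ≤ F.indicator (fun _ => (1 : ℝ)) a) →
        ∑ k ∈ s, ‖∫ a, w k a * g a ∂μ‖ ^ 3 ≤ D * (μ F).toReal)
    (f : α → ℂ) (hf : Measurable f) (hf3 : MemLp f 3 μ) (J : ℕ) :
    ∑ k ∈ s, ‖∫ a, w k a * f a ∂μ‖ ^ 3 ≤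
      (2 * (J : ℝ) + 2) ^ 2 *
        (8 * D + (s.card : ℝ) * b ^ 3 * ((μ Set.univ).toReal ^ 3 * (1 / 2) ^ (3 * J) + (1 / 2) ^ (6 * J))) *
          ∫ a, ‖f a‖ ^ 3 ∂μ := by
  classical
  have hf3' : MemLp f ((3 : ℕ) : ENNReal) μ := by simpa using hf3
  have hint3 : Integrable (fun a => ‖f a‖ ^ 3) μ := hf3'.integrable_norm_pow (by norm_num)
  have hfint : Integrable f μ := hf3.integrable (by norm_num)
  have hwf : ∀ k ∈ s, Integrable (fun a => w k a * f a) μ := fun k hk =>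
    hfint.bdd_mul (hw k hk) (Filter.Eventually.of_forall (hb k hk))
  set T : ℝ := ∫ a, ‖f a‖ ^ 3 ∂μ with hT
  have hT0 : 0 ≤ T := integral_nonneg fun a => by positivity
  rcases hT0.eq_or_lt with hTz | hTpos
  · -- `f = 0` a.e.
    have hae : (fun a => ‖f a‖ ^ 3) =ᵐ[μ] 0 :=
      (integral_eq_zero_iff_of_nonneg (fun a => by positivity) hint3).1 hTz.symm
    have hz : ∀ k, ∫ a, w k a * f a ∂μ = 0 := fun k => by
      apply integral_eq_zero_of_ae
      filter_upwards [hae] with a ha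
      have : f a = 0 := by simpa using ha
      simp [this]
    simp [hz, ← hTz]
  set m : ℝ := (μ Set.univ).toReal with hm
  have hm0 : 0 ≤ m := ENNReal.toReal_nonneg
  set c : ℝ := T ^ (1 / 3 : ℝ) with hc
  have hcpos : 0 < c := Real.rpow_pos_of_pos hTpos _
  have hc3 : c ^ 3 = T := by
    rw [hc, ← Real.rpow_natCast, ← Real.rpow_mul hT0]; norm_num
  set t : ℕ → ℝ := fun i => c * 2 ^ i / 2 ^ J with ht
  have htpos : ∀ i, 0 < t i := fun i => by simp only [ht]; positivity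
  have htsucc : ∀ i, t (i + 1) = 2 * t i := fun i => by simp only [ht]; rw [pow_succ]; ring
  set G : ℕ → Set α := fun i => {a | ‖f a‖ ≤ t i} with hG
  have hGm : ∀ i, MeasurableSet (G i) := fun i => measurableSet_le hf.norm measurable_const
  have hGmono : ∀ i, G i ⊆ G (i + 1) := fun i a ha => by
    have h1 : ‖f a‖ ≤ t i := ha
    show ‖f a‖ ≤ t (i + 1)
    rw [htsucc]; linarith [htpos i]
  set n : ℕ := 2 * J + 2 with hn
  set H : ℕ → Set α := fun i => if i = 0 then ∅ else if i = n then Set.univ else G (i - 1) with hH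
  have hH0 : H 0 = ∅ := by simp [hH]
  have hHn : H n = Set.univ := by simp [hH, hn]
  have hHmid : ∀ i, i < n - 1 → H (i + 1) = G i := fun i hi => by
    have h1 : i + 1 ≠ n := by omega
    simp [hH, h1]
  have hHm : ∀ i, MeasurableSet (H i) := fun i => by
    simp only [hH]
    split_ifs
    · exact MeasurableSet.empty
    · exact MeasurableSet.univ
    · exact hGm _
  have hHmono : ∀ i < n, H i ⊆ H (i + 1) := fun i hi => by
    rcases Nat.eq_zero_or_pos i with rfl | hi0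
    · rw [hH0]; exact Set.empty_subset _
    · by_cases h1 : i + 1 = n
      · rw [h1, hHn]; exact Set.subset_univ _
      · obtain ⟨j, rfl⟩ : ∃ j, i = j + 1 := ⟨i - 1, by omega⟩
        rw [hHmid j (by omega), hHmid (j + 1) (by omega)]
        exact hGmono j
  set P : ℕ → Set α := fun i => H (i + 1) \ H i with hP
  have hPm : ∀ i, MeasurableSet (P i) := fun i => (hHm _).diff (hHm _)
  set B : ℕ → ℝ := fun i => ∫ a in P i, ‖f a‖ ^ 3 ∂μ with hB
  have hB0 : ∀ i, 0 ≤ B i := fun i => setIntegral_nonneg (hPm i) fun a _ => by positivity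
  have hBsum : T = ∑ i ∈ Finset.range n, B i := oe_tele μ H hHm n hHmono hH0 hHn _ hint3
  set A : ι → ℕ → ℂ := fun k i => ∫ a in P i, w k a * f a ∂μ with hA
  have hAsum : ∀ k ∈ s, ∫ a, w k a * f a ∂μ = ∑ i ∈ Finset.range n, A k i := fun k hk =>
    oe_tele μ H hHm n hHmono hH0 hHn _ (hwf k hk)
  set E0 : ℝ := (s.card : ℝ) * b ^ 3 * (m ^ 3 * (1 / 2) ^ (3 * J)) * T with hE0
  set E1 : ℝ := (s.card : ℝ) * b ^ 3 * (1 / 2) ^ (6 * J) * T with hE1
  -- the three kinds of pieces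
  have hlow : ∑ k ∈ s, ‖A k 0‖ ^ 3 ≤ E0 := by
    have hP0 : P 0 = G 0 := by
      simp only [hP]
      rw [hH0, hHmid 0 (by omega)]; simp
    have h1 : ∀ k ∈ s, ‖A k 0‖ ^ 3 ≤ b ^ 3 * (m ^ 3 * (1 / 2) ^ (3 * J)) * T := fun k hk => by
      have h2 : ‖A k 0‖ ≤ b * t 0 * μ.real (P 0) := by
        refine norm_setIntegral_le_of_norm_le_const (measure_lt_top μ _) fun a ha => ?_
        rw [hP0] at ha
        have h3 : ‖f a‖ ≤ t 0 := ha
        rw [norm_mul]
        exact mul_le_mul (hb k hk a) h3 (norm_nonneg _) hb0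
      have h4 : μ.real (P 0) ≤ m := measureReal_mono (Set.subset_univ _)
      have h5 : ‖A k 0‖ ≤ b * t 0 * m :=
        h2.trans (mul_le_mul_of_nonneg_left h4 (mul_nonneg hb0 (htpos 0).le))
      calc ‖A k 0‖ ^ 3 ≤ (b * t 0 * m) ^ 3 := pow_le_pow_left₀ (norm_nonneg _) h5 3
        _ = b ^ 3 * (m ^ 3 * (1 / 2) ^ (3 * J)) * T := by
          rw [← hc3]
          simp only [ht, pow_zero, mul_one]
          rw [pow_mul' (1 / 2 : ℝ) 3 J, one_div, inv_pow]
          field_simp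
    calc ∑ k ∈ s, ‖A k 0‖ ^ 3 ≤ ∑ _k ∈ s, b ^ 3 * (m ^ 3 * (1 / 2) ^ (3 * J)) * T := Finset.sum_le_sum h1
      _ = E0 := by rw [Finset.sum_const, nsmul_eq_mul, hE0]; ring
  have hhigh : ∑ k ∈ s, ‖A k (2 * J + 1)‖ ^ 3 ≤ E1 := by
    have hP1 : P (2 * J + 1) = (G (2 * J))ᶜ := by
      simp only [hP]
      rw [show 2 * J + 1 + 1 = n from rfl, hHn, hHmid (2 * J) (by omega), Set.compl_eq_univ_sdiff]
    set τ : ℝ := t (2 * J) with hτ
    have hτpos : 0 < τ := htpos _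
    have hτe : τ = c * 2 ^ J := by
      simp only [hτ, ht]
      rw [two_mul, pow_add]; field_simp
    have h1 : ∀ k ∈ s, ‖A k (2 * J + 1)‖ ^ 3 ≤ b ^ 3 * (1 / 2) ^ (6 * J) * T := fun k hk => by
      have h2 : ‖A k (2 * J + 1)‖ ≤ ∫ a in P (2 * J + 1), b * (‖f a‖ ^ 3 / τ ^ 2) ∂μ := by
        refine norm_integral_le_of_norm_le ((hint3.div_const _).const_mul _).integrableOn ?_
        refine (ae_restrict_iff' (hPm _)).2 (Filter.Eventually.of_forall fun a ha => ?_)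
        rw [hP1] at ha
        have h3 : τ < ‖f a‖ := not_le.1 ha
        rw [norm_mul]
        refine mul_le_mul (hb k hk a) ?_ (norm_nonneg _) hb0
        rw [le_div_iff₀ (by positivity)]
        calc ‖f a‖ * τ ^ 2 ≤ ‖f a‖ * ‖f a‖ ^ 2 := by gcongr
          _ = ‖f a‖ ^ 3 := by ring
      have h4 : ∫ a in P (2 * J + 1), b * (‖f a‖ ^ 3 / τ ^ 2) ∂μ ≤ b * (T / τ ^ 2) := by
        rw [integral_const_mul, integral_div]
        refine mul_le_mul_of_nonneg_left ?_ hb0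
        refine div_le_div_of_nonneg_right ?_ (by positivity)
        exact setIntegral_le_integral hint3 (Filter.Eventually.of_forall fun a => by positivity)
      have h5 : ‖A k (2 * J + 1)‖ ≤ b * (T / τ ^ 2) := h2.trans h4
      calc ‖A k (2 * J + 1)‖ ^ 3 ≤ (b * (T / τ ^ 2)) ^ 3 := pow_le_pow_left₀ (norm_nonneg _) h5 3
        _ = b ^ 3 * (1 / 2) ^ (6 * J) * T := by
          rw [hτe, ← hc3, pow_mul' (1 / 2 : ℝ) 6 J, one_div, inv_pow]
          field_simp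
    calc ∑ k ∈ s, ‖A k (2 * J + 1)‖ ^ 3 ≤ ∑ _k ∈ s, b ^ 3 * (1 / 2) ^ (6 * J) * T := Finset.sum_le_sum h1
      _ = E1 := by rw [Finset.sum_const, nsmul_eq_mul, hE1]; ring
  have hmid : ∀ j, j < 2 * J → ∑ k ∈ s, ‖A k (j + 1)‖ ^ 3 ≤ 8 * D * B (j + 1) := fun j hj => by
    have hPj : P (j + 1) = G (j + 1) \ G j := by
      simp only [hP]
      rw [hHmid j (by omega), hHmid (j + 1) (by omega)]
    set τ : ℝ := t (j + 1) with hτ
    have hτpos : 0 < τ := htpos _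
    set g : α → ℂ := (P (j + 1)).indicator fun a => f a / (τ : ℂ) with hg
    have hgm : Measurable g := (hf.div_const _).indicator (hPm _)
    have hg1 : ∀ a, ‖g a‖ ≤ (P (j + 1)).indicator (fun _ => (1 : ℝ)) a := fun a => by
      by_cases ha : a ∈ P (j + 1)
      · rw [hg, Set.indicator_of_mem ha, Set.indicator_of_mem ha, norm_div, Complex.norm_real,
          Real.norm_of_nonneg hτpos.le, div_le_one hτpos]
        rw [hPj] at ha
        exact ha.1
      · rw [hg, Set.indicator_of_notMem ha, Set.indicator_of_notMem ha, norm_zero]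
    have h1 := hD (P (j + 1)) (hPm _) g hgm hg1
    have h2 : ∀ k, A k (j + 1) = (τ : ℂ) * ∫ a, w k a * g a ∂μ := fun k => by
      rw [← integral_const_mul, hA]
      simp only
      rw [← integral_indicator (hPm _)]
      congr 1
      funext a
      by_cases ha : a ∈ P (j + 1)
      · rw [Set.indicator_of_mem ha, hg, Set.indicator_of_mem ha]
        have : (τ : ℂ) ≠ 0 := by exact_mod_cast hτpos.ne'
        field_simp
      · rw [Set.indicator_of_notMem ha, hg, Set.indicator_of_notMem ha]; simp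
    have h3 : ∑ k ∈ s, ‖A k (j + 1)‖ ^ 3 = τ ^ 3 * ∑ k ∈ s, ‖∫ a, w k a * g a ∂μ‖ ^ 3 := by
      rw [Finset.mul_sum]
      refine Finset.sum_congr rfl fun k _ => ?_
      rw [h2, norm_mul, Complex.norm_real, Real.norm_of_nonneg hτpos.le, mul_pow]
    have h4 : t j ^ 3 * μ.real (P (j + 1)) ≤ B (j + 1) := by
      refine setIntegral_ge_of_const_le_real (hPm _) (measure_ne_top μ _) (fun a ha => ?_) hint3.integrableOn
      rw [hPj] at ha
      have h5 : t j < ‖f a‖ := not_le.1 ha.2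
      exact pow_le_pow_left₀ (htpos j).le h5.le 3
    calc ∑ k ∈ s, ‖A k (j + 1)‖ ^ 3 = τ ^ 3 * ∑ k ∈ s, ‖∫ a, w k a * g a ∂μ‖ ^ 3 := h3
      _ ≤ τ ^ 3 * (D * (μ (P (j + 1))).toReal) := mul_le_mul_of_nonneg_left h1 (by positivity)
      _ = 8 * D * (t j ^ 3 * μ.real (P (j + 1))) := by
        rw [hτ, htsucc, measureReal_def]; ring
      _ ≤ 8 * D * B (j + 1) := mul_le_mul_of_nonneg_left h4 (by positivity)
  have hhalf : ∀ r : ℕ, (0 : ℝ) ≤ (1 / 2) ^ r := fun r => pow_nonneg (by norm_num) r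
  have hE0nn : 0 ≤ E0 :=
    mul_nonneg (mul_nonneg (mul_nonneg (Nat.cast_nonneg _) (pow_nonneg hb0 3))
      (mul_nonneg (pow_nonneg hm0 3) (hhalf _))) hT0
  have hE1nn : 0 ≤ E1 :=
    mul_nonneg (mul_nonneg (mul_nonneg (Nat.cast_nonneg _) (pow_nonneg hb0 3)) (hhalf _)) hT0
  have hpiece : ∀ i ∈ Finset.range n, ∑ k ∈ s, ‖A k i‖ ^ 3 ≤
      8 * D * B i + ((if i = 0 then E0 else 0) + (if i = 2 * J + 1 then E1 else 0)) := fun i hi => by
    have hi' : i < 2 * J + 2 := Finset.mem_range.1 hi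
    have hDB : 0 ≤ 8 * D * B i := mul_nonneg (by positivity) (hB0 i)
    rcases Nat.eq_zero_or_pos i with rfl | hi0
    · have : (0 : ℕ) ≠ 2 * J + 1 := by omega
      rw [if_pos rfl, if_neg this]
      linarith [hlow]
    · by_cases h1 : i = 2 * J + 1
      · subst h1
        rw [if_neg (by omega), if_pos rfl]
        linarith [hhigh]
      · obtain ⟨j, rfl⟩ : ∃ j, i = j + 1 := ⟨i - 1, by omega⟩
        rw [if_neg (by omega), if_neg h1]
        linarith [hmid j (by omega)]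
  have hncast : ((Finset.range n).card : ℝ) = 2 * (J : ℝ) + 2 := by
    rw [Finset.card_range, hn]; push_cast; ring
  calc ∑ k ∈ s, ‖∫ a, w k a * f a ∂μ‖ ^ 3
      ≤ ∑ k ∈ s, (2 * (J : ℝ) + 2) ^ 2 * ∑ i ∈ Finset.range n, ‖A k i‖ ^ 3 := by
        refine Finset.sum_le_sum fun k hk => ?_
        rw [hAsum k hk, ← hncast]
        calc ‖∑ i ∈ Finset.range n, A k i‖ ^ 3 ≤ (∑ i ∈ Finset.range n, ‖A k i‖) ^ 3 :=
              pow_le_pow_left₀ (norm_nonneg _) (norm_sum_le _ _) 3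
          _ ≤ _ := pow_sum_le_card_mul_sum_pow (fun i _ => norm_nonneg _) 2
    _ = (2 * (J : ℝ) + 2) ^ 2 * ∑ i ∈ Finset.range n, ∑ k ∈ s, ‖A k i‖ ^ 3 := by
        rw [← Finset.mul_sum, Finset.sum_comm]
    _ ≤ (2 * (J : ℝ) + 2) ^ 2 * ∑ i ∈ Finset.range n,
          (8 * D * B i + ((if i = 0 then E0 else 0) + (if i = 2 * J + 1 then E1 else 0))) :=
        mul_le_mul_of_nonneg_left (Finset.sum_le_sum hpiece) (by positivity)
    _ = (2 * (J : ℝ) + 2) ^ 2 * (8 * D * T + (E0 + E1)) := by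
        rw [Finset.sum_add_distrib, Finset.sum_add_distrib, ← Finset.mul_sum, ← hBsum,
          Finset.sum_ite_eq' (Finset.range n) 0, Finset.sum_ite_eq' (Finset.range n) (2 * J + 1),
          if_pos (Finset.mem_range.2 (by omega)), if_pos (Finset.mem_range.2 (by omega))]
    _ = _ := by rw [hE0, hE1]; ring

end Claimed.Agent.R255.Osc
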