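import Claimed.Agent.R255.Osc.FromEndA2
import Claimed.Agent.R255.Osc.FromEndA3
import Claimed.Agent.R255.Osc.FromEndB

/-!
# R255 / OSC / FromEnd : `EndSum → OSC`        (architect helper17)

Assembly of the leaves `FromEndA1, A2, A3, B`.
-/

set_option autoImplicit false

namespace Claimed.Agent.R255.Osc

open MeasureTheory
open scoped ContDiff

/-- the weight `e^{i λ Φ(c,x,v)} ψ(v)` -/
noncomputable def owt (lam : ℝ) (Φ : ℝ → E2 → E2 → ℝ) (c : ℝ) (x : E2) (ψ : E2 → ℂ) (v : E2) : ℂ :=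
  Complex.exp (Complex.I * ((lam * Φ c x v : ℝ) : ℂ)) * ψ v

theorem oe_opair_eq (lam : ℝ) (Φ : ℝ → E2 → E2 → ℝ) (c : ℝ) (x : E2) (ψ f : E2 → ℂ) :
    opair lam Φ c x ψ f = ∫ v, owt lam Φ c x ψ v * f v := rfl

theorem oe_owt_norm (lam : ℝ) (Φ : ℝ → E2 → E2 → ℝ) (c : ℝ) (x : E2) (ψ : E2 → ℂ) (v : E2) :
    ‖owt lam Φ c x ψ v‖ = ‖ψ v‖ := by
  rw [owt, norm_mul, Complex.norm_exp_I_mul_ofReal, one_mul]

theorem IsEndAmp.norm_le {K : OscBd} {ψ : E2 → ℂ} (h : IsEndAmp K ψ) (v : E2) : ‖ψ v‖ ≤ K.Bb 0 := by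
  have := h.bound 0 v
  rwa [norm_iteratedFDeriv_zero] at this

theorem IsPhase.continuous {K : OscBd} {Φ : ℝ → E2 → E2 → ℝ} {ζ : E2 → E2 → E2} (h : IsPhase K Φ ζ)
    {c : ℝ} (hc : 0 ≤ c) (x : E2) : Continuous (Φ c x) :=
  continuous_iff_continuousAt.2 fun v => (h.grad c hc x v).hasFDerivAt.continuousAt

theorem oe_owt_continuous {K : OscBd} {Φ : ℝ → E2 → E2 → ℝ} {ζ : E2 → E2 → E2} (h : IsPhase K Φ ζ)
    (lam : ℝ) {c : ℝ} (hc : 0 ≤ c) (x : E2) {ψ : E2 → ℂ} (hψ : IsEndAmp K ψ) :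
    Continuous (owt lam Φ c x ψ) := by
  have h1 := h.continuous hc x
  have h2 := hψ.smooth.continuous
  unfold owt
  fun_prop

/-- the sum over one point per box, for a general input -/
theorem oe_point_sum {K : OscBd} {C₁ η lam : ℝ} {Φ : ℝ → E2 → E2 → ℝ} {ζ : E2 → E2 → E2}
    (hC₁ : 0 ≤ C₁) (hlam : 2 ≤ lam) (hΦ : IsPhase K Φ ζ)
    (s : Finset Z3) (c : Z3 → ℝ) (x : Z3 → E2) (ψ : Z3 → E2 → ℂ)
    (hE : ∀ F : Set E2, MeasurableSet F → (∀ v ∈ F, ‖v‖ ≤ K.Rv) →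
          ∀ f : E2 → ℂ, Measurable f → (∀ v, ‖f v‖ ≤ F.indicator (fun _ => (1 : ℝ)) v) →
            ∑ k ∈ s, ‖opair lam Φ (c k) (x k) (ψ k) f‖ ^ 3 ≤ C₁ * lam ^ η * (volume F).toReal)
    (hs : ∀ k ∈ s, c k ∈ Set.Icc (0 : ℝ) 1 ∧ IsEndAmp K (ψ k))
    (hb0 : 0 ≤ K.Bb 0)
    (f : E2 → ℂ) (hf : Measurable f) (hf3 : MemLp f 3 volume) (hfs : ∀ v, f v ≠ 0 → ‖v‖ ≤ K.Rv) (J : ℕ) :
    ∑ k ∈ s, ‖opair lam Φ (c k) (x k) (ψ k) f‖ ^ 3 ≤
      (2 * (J : ℝ) + 2) ^ 2 *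
        (8 * (C₁ * lam ^ η) + (s.card : ℝ) * K.Bb 0 ^ 3 *
          ((volume (Metric.closedBall (0 : E2) K.Rv)).toReal ^ 3 * (1 / 2) ^ (3 * J) + (1 / 2) ^ (6 * J))) *
          ∫ v, ‖f v‖ ^ 3 := by
  set bl : Set E2 := Metric.closedBall (0 : E2) K.Rv with hbl
  have hblm : MeasurableSet bl := Metric.isClosed_closedBall.measurableSet
  have hmem : ∀ v : E2, v ∈ bl ↔ ‖v‖ ≤ K.Rv := fun v => by rw [hbl, mem_closedBall_zero_iff]
  have : IsFiniteMeasure (volume.restrict bl) :=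
    ⟨by rw [Measure.restrict_apply_univ]; exact measure_closedBall_lt_top⟩
  have key := oe_strong_of_restricted (volume.restrict bl) s (fun k => owt lam Φ (c k) (x k) (ψ k))
    (K.Bb 0) (C₁ * lam ^ η) hb0 (by positivity)
    (fun k hk => (oe_owt_continuous hΦ lam (hs k hk).1.1 (x k) (hs k hk).2).aestronglyMeasurable)
    (fun k hk a => by rw [oe_owt_norm]; exact (hs k hk).2.norm_le a)
    (by
      intro F hF g hg hgF
      have h1 := hE (F ∩ bl) (hF.inter hblm) (fun v hv => (hmem v).1 hv.2)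
        (bl.indicator g) (hg.indicator hblm) (by
          intro v
          by_cases hv : v ∈ bl
          · rw [Set.indicator_of_mem hv]
            refine (hgF v).trans (le_of_eq ?_)
            by_cases hvF : v ∈ F
            · rw [Set.indicator_of_mem hvF, Set.indicator_of_mem (Set.mem_inter hvF hv)]
            · rw [Set.indicator_of_notMem hvF, Set.indicator_of_notMem (fun h : v ∈ F ∩ bl => hvF h.1)]
          · rw [Set.indicator_of_notMem hv, norm_zero]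
            exact Set.indicator_nonneg (fun _ _ => zero_le_one) v)
      rw [Measure.restrict_apply hF]
      refine le_trans (le_of_eq ?_) h1
      refine Finset.sum_congr rfl fun k _ => ?_
      rw [oe_opair_eq, ← integral_indicator hblm]
      congr 3
      funext v
      rw [Set.indicator_mul_right])
    f hf (hf3.restrict bl) J
  rw [Measure.restrict_apply_univ] at key
  have e1 : ∫ a, ‖f a‖ ^ 3 ∂(volume.restrict bl) = ∫ v, ‖f v‖ ^ 3 := by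
    apply setIntegral_eq_integral_of_forall_compl_eq_zero
    intro v hv
    have : f v = 0 := by
      by_contra h
      exact hv ((hmem v).2 (hfs v h))
    rw [this]; simp
  have e2 : ∀ k, ∫ a, owt lam Φ (c k) (x k) (ψ k) a * f a ∂(volume.restrict bl)
      = opair lam Φ (c k) (x k) (ψ k) f := by
    intro k
    rw [oe_opair_eq]
    apply setIntegral_eq_integral_of_forall_compl_eq_zero
    intro v hv
    have : f v = 0 := by
      by_contra h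
      exact hv ((hmem v).2 (hfs v h))
    rw [this, mul_zero]
  rw [e1] at key
  simp only [e2] at key
  exact key

theorem oe_integrable {R : ℝ} {f : E2 → ℂ} (hf3 : MemLp f 3 volume) (hfs : ∀ v, f v ≠ 0 → ‖v‖ ≤ R) :
    Integrable f volume := by
  have : IsFiniteMeasure (volume.restrict (Metric.closedBall (0 : E2) R)) :=
    ⟨by rw [Measure.restrict_apply_univ]; exact measure_closedBall_lt_top⟩
  have h1 : IntegrableOn f (Metric.closedBall (0 : E2) R) volume :=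
    (hf3.restrict (Metric.closedBall (0 : E2) R)).integrable (by norm_num)
  refine h1.integrable_of_forall_notMem_eq_zero fun v hv => ?_
  by_contra h
  exact hv (mem_closedBall_zero_iff.2 (hfs v h))

theorem oe_Elam_norm_le {K : OscBd} {B : ℝ → E2 → E2 → ℂ} (hB : IsAmp K B) (lam : ℝ)
    (Φ : ℝ → E2 → E2 → ℝ) {f : E2 → ℂ} (hf : Integrable f volume) (q : ℝ × E2) :
    ‖Elam lam Φ B f q‖ ≤ K.Bb 0 * ∫ v, ‖f v‖ := by
  rw [Elam_eq_opair, oe_opair_eq, ← integral_const_mul]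
  refine norm_integral_le_of_norm_le (hf.norm.const_mul _) (Filter.Eventually.of_forall fun v => ?_)
  rw [norm_mul, oe_owt_norm]
  exact mul_le_mul_of_nonneg_right ((hB.isEndAmp q.1 q.2).norm_le v) (norm_nonneg _)

theorem oe_Elam_supp {K : OscBd} {B : ℝ → E2 → E2 → ℂ} (hB : IsAmp K B) (lam : ℝ)
    (Φ : ℝ → E2 → E2 → ℝ) (f : E2 → ℂ) (q : ℝ × E2) (hq : Elam lam Φ B f q ≠ 0) :
    q.1 ∈ Set.Icc (0 : ℝ) 1 ∧ ‖q.2‖ ≤ K.Rx := by
  by_contra hcon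
  apply hq
  have h0 : ∀ v, B q.1 q.2 v = 0 := by
    intro v
    by_contra hv
    exact hcon ⟨(hB.supp _ _ _ hv).1, (hB.supp _ _ _ hv).2.1⟩
  rw [Elam]
  simp [h0]

theorem oe_half_pow_le {lam : ℝ} (hlam : 2 ≤ lam) :
    ((1 : ℝ) / 2) ^ (⌈Real.logb 2 lam⌉₊ : ℕ) ≤ 1 / lam := by
  have hl0 : (0 : ℝ) < lam := by linarith
  have h1 : lam ≤ (2 : ℝ) ^ (⌈Real.logb 2 lam⌉₊ : ℕ) := by
    calc lam = (2 : ℝ) ^ (Real.logb 2 lam) := (Real.rpow_logb (by norm_num) (by norm_num) hl0).symm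
      _ ≤ (2 : ℝ) ^ ((⌈Real.logb 2 lam⌉₊ : ℕ) : ℝ) :=
          Real.rpow_le_rpow_of_exponent_le (by norm_num) (Nat.le_ceil _)
      _ = (2 : ℝ) ^ (⌈Real.logb 2 lam⌉₊ : ℕ) := Real.rpow_natCast _ _
  rw [one_div, inv_pow, one_div]
  exact inv_anti₀ hl0 h1

theorem oe_numeric {lam ν C₁ C₂ b vb r N T : ℝ} {J : ℕ} (hlam : 2 ≤ lam) (hν : 0 < ν) (hC₁ : 0 ≤ C₁)
    (hb : 0 ≤ b) (hvb : 0 ≤ vb) (hr : 0 ≤ r) (hN0 : 0 ≤ N) (hN : N ≤ 8 * r * lam ^ 3)
    (hJ : ((1 : ℝ) / 2) ^ J ≤ 1 / lam) (hlog : (2 * (J : ℝ) + 2) ^ 2 ≤ C₂ * lam ^ ν) (hT : 0 ≤ T) :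
    (2 * (J : ℝ) + 2) ^ 2 * (8 * (C₁ * lam ^ ν) + N * b ^ 3 * (vb ^ 3 * (1 / 2) ^ (3 * J) + (1 / 2) ^ (6 * J))) * T
      ≤ C₂ * (8 * C₁ + 8 * r * b ^ 3 * (vb ^ 3 + 1)) * lam ^ (2 * ν) * T := by
  have hl0 : (0 : ℝ) < lam := by linarith
  set h : ℝ := ((1 : ℝ) / 2) ^ J with hh
  have hh0 : 0 ≤ h := by positivity
  have hl1 : 1 / lam ≤ 1 := by rw [div_le_one hl0]; linarith
  have h3 : h ^ 3 ≤ 1 / lam ^ 3 := by
    calc h ^ 3 ≤ (1 / lam) ^ 3 := pow_le_pow_left₀ hh0 hJ 3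
      _ = 1 / lam ^ 3 := by rw [div_pow, one_pow]
  have h31 : h ^ 3 ≤ 1 := pow_le_one₀ hh0 (hJ.trans hl1)
  have e3 : ((1 : ℝ) / 2) ^ (3 * J) = h ^ 3 := by rw [hh, ← pow_mul, mul_comm]
  have e6 : ((1 : ℝ) / 2) ^ (6 * J) = h ^ 3 * h ^ 3 := by rw [hh, ← pow_mul, ← pow_add]; congr 1; ring
  have h6 : h ^ 3 * h ^ 3 ≤ 1 / lam ^ 3 := by
    calc h ^ 3 * h ^ 3 ≤ 1 * h ^ 3 := mul_le_mul_of_nonneg_right h31 (by positivity)
      _ ≤ 1 / lam ^ 3 := by rw [one_mul]; exact h3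
  have hp1 : 1 ≤ lam ^ ν := Real.one_le_rpow (by linarith) hν.le
  have hA : N * b ^ 3 * (vb ^ 3 * h ^ 3 + h ^ 3 * h ^ 3) ≤ 8 * r * b ^ 3 * (vb ^ 3 + 1) := by
    have s1 : vb ^ 3 * h ^ 3 + h ^ 3 * h ^ 3 ≤ (vb ^ 3 + 1) * (1 / lam ^ 3) := by
      have := mul_le_mul_of_nonneg_left h3 (by positivity : 0 ≤ vb ^ 3)
      linarith
    calc N * b ^ 3 * (vb ^ 3 * h ^ 3 + h ^ 3 * h ^ 3)
        ≤ (8 * r * lam ^ 3) * b ^ 3 * ((vb ^ 3 + 1) * (1 / lam ^ 3)) := by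
          apply mul_le_mul (mul_le_mul_of_nonneg_right hN (by positivity)) s1 (by positivity) (by positivity)
      _ = 8 * r * b ^ 3 * (vb ^ 3 + 1) := by field_simp
  rw [e3, e6]
  have hC3 : 0 ≤ 8 * r * b ^ 3 * (vb ^ 3 + 1) := by positivity
  have hB : 8 * (C₁ * lam ^ ν) + N * b ^ 3 * (vb ^ 3 * h ^ 3 + h ^ 3 * h ^ 3)
      ≤ (8 * C₁ + 8 * r * b ^ 3 * (vb ^ 3 + 1)) * lam ^ ν := by
    have := mul_le_mul_of_nonneg_left hp1 hC3
    nlinarith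
  have hB0 : 0 ≤ 8 * (C₁ * lam ^ ν) + N * b ^ 3 * (vb ^ 3 * h ^ 3 + h ^ 3 * h ^ 3) := by positivity
  have e2 : lam ^ (2 * ν) = lam ^ ν * lam ^ ν := by rw [two_mul, Real.rpow_add hl0]
  apply mul_le_mul_of_nonneg_right _ hT
  calc (2 * (J : ℝ) + 2) ^ 2 * (8 * (C₁ * lam ^ ν) + N * b ^ 3 * (vb ^ 3 * h ^ 3 + h ^ 3 * h ^ 3))
      ≤ (C₂ * lam ^ ν) * ((8 * C₁ + 8 * r * b ^ 3 * (vb ^ 3 + 1)) * lam ^ ν) :=
        mul_le_mul hlog hB hB0 (le_trans (by positivity) hlog)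
    _ = C₂ * (8 * C₁ + 8 * r * b ^ 3 * (vb ^ 3 + 1)) * lam ^ (2 * ν) := by rw [e2]; ring

/-- the cube of the `L³` bound, for measurable inputs -/
theorem oe_core (hE : EndSum) (K : OscBd) (ha0 : 0 < K.a0) (ν : ℝ) (hν : 0 < ν) :
    ∃ C : ℝ, 0 ≤ C ∧ ∀ lam : ℝ, 2 ≤ lam →
      ∀ (Φ : ℝ → E2 → E2 → ℝ) (ζ : E2 → E2 → E2), IsPhase K Φ ζ → ∀ B : ℝ → E2 → E2 → ℂ, IsAmp K B →
        ∀ f : E2 → ℂ, Measurable f → MemLp f 3 volume → (∀ v, f v ≠ 0 → ‖v‖ ≤ K.Rv) →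
          ∫⁻ q, ‖Elam lam Φ B f q‖ₑ ^ (3 : ℝ) ≤
            ENNReal.ofReal (C * lam ^ (2 * ν) / lam ^ 3 * ∫ v, ‖f v‖ ^ 3) := by
  obtain ⟨C₁', hC₁'⟩ := hE K ha0 ν hν
  obtain ⟨C₂, hC₂0, hC₂⟩ := oe_log_loss ν hν
  set C₁ : ℝ := max C₁' 0 with hC₁
  have hC₁0 : 0 ≤ C₁ := le_max_right _ _
  set vb : ℝ := (volume (Metric.closedBall (0 : E2) K.Rv)).toReal with hvb
  have hvb0 : 0 ≤ vb := ENNReal.toReal_nonneg
  set r : ℝ := (|K.Rx| + 1) ^ 2 with hr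
  have hr0 : 0 ≤ r := by positivity
  refine ⟨C₂ * (8 * C₁ + 8 * r * |K.Bb 0| ^ 3 * (vb ^ 3 + 1)), by positivity, ?_⟩
  intro lam hlam Φ ζ hΦ B hB f hf hf3 hfs
  have hl0 : (0 : ℝ) < lam := by linarith
  have hb0 : 0 ≤ K.Bb 0 := le_trans (norm_nonneg _) ((hB.isEndAmp 0 0).norm_le 0)
  rw [abs_of_nonneg hb0]
  have hfi : Integrable f volume := oe_integrable hf3 hfs
  have hT : 0 ≤ ∫ v, ‖f v‖ ^ 3 := integral_nonneg fun v => by positivity
  -- remove the null slice `c = 1`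
  set h' : ℝ × E2 → ℂ := fun q => if q.1 < 1 then Elam lam Φ B f q else 0 with hh'
  have hae : (fun q => ‖Elam lam Φ B f q‖ₑ ^ (3 : ℝ)) =ᵐ[volume] fun q => ‖h' q‖ₑ ^ (3 : ℝ) := by
    have hnull : volume {q : ℝ × E2 | q.1 = 1} = 0 := by
      have e : {q : ℝ × E2 | q.1 = 1} = ({1} : Set ℝ) ×ˢ (Set.univ : Set E2) := by
        ext q
        simp
      rw [e, Measure.volume_eq_prod, Measure.prod_prod, Real.volume_singleton, zero_mul]
    have hne : ∀ᵐ q : ℝ × E2, q.1 ≠ 1 := by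
      rw [ae_iff]
      simpa using hnull
    filter_upwards [hne] with q hq
    by_cases h1 : q.1 < 1
    · simp only [hh', if_pos h1]
    · have h0 : Elam lam Φ B f q = 0 := by
        by_contra hcon
        exact h1 (lt_of_le_of_ne (oe_Elam_supp hB lam Φ f q hcon).1.2 hq)
      simp only [hh', if_neg h1, h0]
  rw [lintegral_congr_ae hae]
  have key := oe_box_lintegral_le lam (by linarith) h'
    (C₂ * (8 * C₁ + 8 * r * K.Bb 0 ^ 3 * (vb ^ 3 + 1)) * lam ^ (2 * ν) * ∫ v, ‖f v‖ ^ 3)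
    (by
      intro q₀ hq₀ s₀
      set q : Z3 → ℝ × E2 := latPt lam q₀ with hq
      set s : Finset Z3 := s₀.filter (fun k => (q k).1 < 1 ∧ Elam lam Φ B f (q k) ≠ 0) with hsdef
      have hsum : ∑ k ∈ s₀, ‖h' (q k)‖ ^ 3 = ∑ k ∈ s, ‖Elam lam Φ B f (q k)‖ ^ 3 := by
        rw [hsdef, Finset.sum_filter]
        refine Finset.sum_congr rfl fun k _ => ?_
        by_cases h1 : (q k).1 < 1
        · by_cases hk : Elam lam Φ B f (q k) = 0
          · simp [hh', hk]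
          · simp [hh', h1, hk]
        · simp [hh', h1]
      rw [hsum]
      have hs : ∀ k ∈ s, (q k).1 ∈ Set.Ico (0 : ℝ) 1 ∧ ‖(q k).2‖ ≤ K.Rx ∧ IsEndAmp K (B (q k).1 (q k).2) :=
        fun k hk => ⟨⟨(oe_Elam_supp hB lam Φ f (q k) (Finset.mem_filter.1 hk).2.2).1.1,
          (Finset.mem_filter.1 hk).2.1⟩,
          (oe_Elam_supp hB lam Φ f (q k) (Finset.mem_filter.1 hk).2.2).2, hB.isEndAmp _ _⟩
      have h1 := oe_point_sum (K := K) (C₁ := C₁) (η := ν) (lam := lam) hC₁0 hlam hΦ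
        s (fun k => (q k).1) (fun k => (q k).2) (fun k => B (q k).1 (q k).2)
        (by
          intro F hF hFs g hg hgF
          refine (hC₁' lam hlam Φ ζ hΦ q₀ hq₀ s (fun k => B (q k).1 (q k).2) hs F hF hFs g hg hgF).trans ?_
          have : C₁' ≤ C₁ := le_max_left _ _
          gcongr)
        (fun k hk => ⟨Set.Ico_subset_Icc_self (hs k hk).1, (hs k hk).2.2⟩) hb0 f hf hf3 hfs
        ⌈Real.logb 2 lam⌉₊
      have hcard := oe_box_card_le lam (by linarith) K.Rx s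
        (fun k hk => ⟨q k, boxIdx_latPt hl0 hq₀ k, Set.Ico_subset_Icc_self (hs k hk).1, (hs k hk).2.1⟩)
      refine le_trans h1 ?_
      exact oe_numeric hlam hν hC₁0 hb0 hvb0 hr0 (Nat.cast_nonneg _) hcard (oe_half_pow_le hlam)
        (hC₂ lam hlam) hT)
  refine key.trans (le_of_eq ?_)
  congr 1
  ring

/-- **`EndSum → OSC`** -/
theorem osc_of_endSum (hE : EndSum) : OSC := by
  intro K ha0 ν hν
  obtain ⟨C, hC0, hC⟩ := oe_core hE K ha0 ν hν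
  refine ⟨C + 1, ?_⟩
  intro lam hlam Φ ζ hΦ B hB f hf3 hfs
  have hl0 : (0 : ℝ) < lam := by linarith
  set bl : Set E2 := Metric.closedBall (0 : E2) K.Rv with hbl
  have hblm : MeasurableSet bl := Metric.isClosed_closedBall.measurableSet
  set g : E2 → ℂ := bl.indicator (hf3.1.mk f) with hg
  have hgm : Measurable g := (hf3.1.stronglyMeasurable_mk.measurable).indicator hblm
  have hfg : f =ᵐ[volume] g := by
    filter_upwards [hf3.1.ae_eq_mk] with v hv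
    by_cases hvb : v ∈ bl
    · rw [hg, Set.indicator_of_mem hvb, ← hv]
    · rw [hg, Set.indicator_of_notMem hvb]
      by_contra h
      exact hvb (mem_closedBall_zero_iff.2 (hfs v h))
  have hg3 : MemLp g 3 volume := (memLp_congr_ae hfg).1 hf3
  have hgs : ∀ v, g v ≠ 0 → ‖v‖ ≤ K.Rv := by
    intro v hv
    by_contra h
    apply hv
    rw [hg, Set.indicator_of_notMem]
    intro hvb
    exact h (mem_closedBall_zero_iff.1 hvb)
  have hEl : Elam lam Φ B f = Elam lam Φ B g := by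
    funext q
    unfold Elam
    apply integral_congr_ae
    filter_upwards [hfg] with v hv
    rw [hv]
  rw [hEl, eLpNorm_congr_ae hfg]
  have h1 := hC lam hlam Φ ζ hΦ B hB g hgm hg3 hgs
  set T : ℝ := ∫ v, ‖g v‖ ^ 3 with hT
  have hT0 : 0 ≤ T := integral_nonneg fun v => by positivity
  have e3 : (3 : ENNReal).toReal = 3 := by simp
  rw [eLpNorm_eq_lintegral_rpow_enorm_toReal (by norm_num) (by norm_num),
    hg3.eLpNorm_eq_integral_rpow_norm (by norm_num) (by norm_num), e3]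
  have eT : ∫ v, ‖g v‖ ^ (3 : ℝ) = T := by
    rw [hT]
    congr 1
    funext v
    exact Real.rpow_natCast _ 3
  rw [eT, ← ENNReal.ofReal_mul (by positivity)]
  calc (∫⁻ q, ‖Elam lam Φ B g q‖ₑ ^ (3 : ℝ)) ^ (1 / (3 : ℝ))
      ≤ (ENNReal.ofReal (C * lam ^ (2 * ν) / lam ^ 3 * T)) ^ (1 / (3 : ℝ)) :=
        ENNReal.rpow_le_rpow h1 (by norm_num)
    _ = ENNReal.ofReal ((C * lam ^ (2 * ν) / lam ^ 3 * T) ^ (1 / (3 : ℝ))) :=
        ENNReal.ofReal_rpow_of_nonneg (by positivity) (by norm_num)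
    _ ≤ ENNReal.ofReal ((C + 1) * lam ^ (-1 + ν) * T ^ (3 : ℝ)⁻¹) := by
        apply ENNReal.ofReal_le_ofReal
        have hy0 : 0 ≤ (C + 1) * lam ^ (-1 + ν) * T ^ (3 : ℝ)⁻¹ := by positivity
        have hcube : C * lam ^ (2 * ν) / lam ^ 3 * T ≤ ((C + 1) * lam ^ (-1 + ν) * T ^ (3 : ℝ)⁻¹) ^ (3 : ℝ) := by
          have a1 : ((C + 1) * lam ^ (-1 + ν) * T ^ (3 : ℝ)⁻¹) ^ (3 : ℝ)
              = (C + 1) ^ 3 * (lam ^ (3 * ν) / lam ^ 3) * T := by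
            rw [Real.mul_rpow (by positivity) (by positivity), Real.mul_rpow (by positivity) (by positivity),
              ← Real.rpow_mul hT0, ← Real.rpow_mul hl0.le]
            have b1 : (3 : ℝ)⁻¹ * 3 = 1 := by norm_num
            have b2 : (-1 + ν) * 3 = 3 * ν - (3 : ℕ) := by push_cast; ring
            have b3 : (C + 1) ^ (3 : ℝ) = (C + 1) ^ 3 := Real.rpow_natCast _ 3
            rw [b1, b2, b3, Real.rpow_one, Real.rpow_sub hl0, Real.rpow_natCast]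
          rw [a1]
          have c1 : C ≤ (C + 1) ^ 3 := by nlinarith [sq_nonneg C, mul_nonneg hC0 (sq_nonneg C)]
          have c2 : lam ^ (2 * ν) ≤ lam ^ (3 * ν) :=
            Real.rpow_le_rpow_of_exponent_le (by linarith) (by linarith)
          rw [mul_div_assoc]
          gcongr
        calc (C * lam ^ (2 * ν) / lam ^ 3 * T) ^ (1 / (3 : ℝ))
            ≤ (((C + 1) * lam ^ (-1 + ν) * T ^ (3 : ℝ)⁻¹) ^ (3 : ℝ)) ^ (1 / (3 : ℝ)) :=
              Real.rpow_le_rpow (by positivity) hcube (by norm_num)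
          _ = (C + 1) * lam ^ (-1 + ν) * T ^ (3 : ℝ)⁻¹ := by
              rw [← Real.rpow_mul hy0]; norm_num

end Claimed.Agent.R255.Osc
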