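import Claimed.Agent.R255.Osc.EndRoot
import Claimed.Agent.R255.Osc.EndTest
import Claimed.Agent.R255.Osc.FromEnd

/-!
# R255 / OSC / EndOfPkt : packet growth ⟹ `EndSum` ⟹ `OSC`        (architect helper17)

Top assembly of part (II): BR Sec. 12, l.50-150.
-/

set_option autoImplicit false

namespace Claimed.Agent.R255.Osc

open MeasureTheory Claimed.Agent.R255 Claimed.Agent.R255.Pkt

section basic

variable {K : OscBd} {F : Set E2} {f : E2 → ℂ}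

theorem oe_volF_lt_top (hFs : ∀ v ∈ F, ‖v‖ ≤ K.Rv) : volume F < ⊤ :=
  lt_of_le_of_lt (measure_mono fun v hv => mem_closedBall_zero_iff.2 (hFs v hv)) measure_closedBall_lt_top

theorem oe_volF_le (hFs : ∀ v ∈ F, ‖v‖ ≤ K.Rv) :
    (volume F).toReal ≤ (volume (Metric.closedBall (0 : E2) K.Rv)).toReal :=
  ENNReal.toReal_mono measure_closedBall_lt_top.ne
    (measure_mono fun v hv => mem_closedBall_zero_iff.2 (hFs v hv))

theorem oe_memLp_of_le (hF : MeasurableSet F) (hFs : ∀ v ∈ F, ‖v‖ ≤ K.Rv) (hf : Measurable f)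
    (hfF : ∀ v, ‖f v‖ ≤ F.indicator (fun _ => (1 : ℝ)) v) (p : ENNReal) : MemLp f p volume := by
  have h1 : MemLp (F.indicator (fun _ => (1 : ℝ))) p volume :=
    memLp_indicator_const p hF 1 (Or.inr (oe_volF_lt_top hFs).ne)
  refine h1.mono hf.aestronglyMeasurable (Filter.Eventually.of_forall fun v => ?_)
  exact (hfF v).trans (le_abs_self _)

theorem oe_supp_of_le (hFs : ∀ v ∈ F, ‖v‖ ≤ K.Rv)
    (hfF : ∀ v, ‖f v‖ ≤ F.indicator (fun _ => (1 : ℝ)) v) (v : E2) (hv : f v ≠ 0) : ‖v‖ ≤ K.Rv := by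
  by_contra h
  have hvF : v ∉ F := fun hvF => h (hFs v hvF)
  have := hfF v
  rw [Set.indicator_of_notMem hvF] at this
  exact hv (norm_le_zero_iff.1 this)

theorem oe_int_norm_le (hF : MeasurableSet F) (hFs : ∀ v ∈ F, ‖v‖ ≤ K.Rv) (hf : Measurable f)
    (hfF : ∀ v, ‖f v‖ ≤ F.indicator (fun _ => (1 : ℝ)) v) : ∫ v, ‖f v‖ ≤ (volume F).toReal := by
  have h1 : Integrable (F.indicator (fun _ => (1 : ℝ))) volume :=
    memLp_one_iff_integrable.1 (memLp_indicator_const 1 hF (1 : ℝ) (Or.inr (oe_volF_lt_top hFs).ne))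
  calc ∫ v, ‖f v‖ ≤ ∫ v, F.indicator (fun _ => (1 : ℝ)) v :=
        integral_mono (memLp_one_iff_integrable.1 (oe_memLp_of_le hF hFs hf hfF 1)).norm h1 hfF
    _ = (volume F).toReal := by
        rw [integral_indicator hF, setIntegral_const]
        simp [Measure.real]

theorem oe_opair_norm_le {ψ : E2 → ℂ} (hψ : IsEndAmp K ψ) (lam : ℝ) (Φ : ℝ → E2 → E2 → ℝ) (c : ℝ) (x : E2)
    (hfi : Integrable f volume) : ‖opair lam Φ c x ψ f‖ ≤ K.Bb 0 * ∫ v, ‖f v‖ := by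
  rw [oe_opair_eq, ← integral_const_mul]
  refine norm_integral_le_of_norm_le (hfi.norm.const_mul _) (Filter.Eventually.of_forall fun v => ?_)
  rw [norm_mul, oe_owt_norm]
  exact mul_le_mul_of_nonneg_right (hψ.norm_le v) (norm_nonneg _)

theorem oe_int_sq_pos {ψ : E2 → ℂ} {lam : ℝ} {Φ : ℝ → E2 → E2 → ℝ} {c : ℝ} {x : E2}
    (hf2 : MemLp f 2 volume) (h : opair lam Φ c x ψ f ≠ 0) : 0 < ∫ v, ‖f v‖ ^ 2 := by
  have hi : Integrable (fun v => ‖f v‖ ^ 2) volume := hf2.integrable_norm_pow (by norm_num)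
  have h0 : 0 ≤ ∫ v, ‖f v‖ ^ 2 := integral_nonneg fun v => by positivity
  rcases h0.lt_or_eq with h1 | h1
  · exact h1
  · exfalso
    apply h
    have h2 := (integral_eq_zero_iff_of_nonneg (fun v => by positivity) hi).1 h1.symm
    rw [opair]
    apply integral_eq_zero_of_ae
    filter_upwards [h2] with v hv
    have : f v = 0 := by
      have : ‖f v‖ ^ 2 = 0 := hv
      exact norm_eq_zero.1 (pow_eq_zero_iff (by norm_num) |>.1 this)
    simp [this]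

end basic

/-- bounded values of `λ` : the trivial estimate -/
theorem oe_small_lam {K : OscBd} {lam Λ η : ℝ} (hlam : 2 ≤ lam) (hΛ : lam ≤ Λ) (hη : 0 < η)
    (Φ : ℝ → E2 → E2 → ℝ) (q₀ : ℝ × E2) (hq₀ : boxIdx lam q₀ = 0) (s : Finset Z3) (ψ : Z3 → E2 → ℂ)
    (hs : ∀ k ∈ s, (latPt lam q₀ k).1 ∈ Set.Ico (0 : ℝ) 1 ∧ ‖(latPt lam q₀ k).2‖ ≤ K.Rx ∧ IsEndAmp K (ψ k))
    (F : Set E2) (hF : MeasurableSet F) (hFs : ∀ v ∈ F, ‖v‖ ≤ K.Rv) (f : E2 → ℂ) (hf : Measurable f)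
    (hfF : ∀ v, ‖f v‖ ≤ F.indicator (fun _ => (1 : ℝ)) v) :
    ∑ k ∈ s, ‖opair lam Φ (latPt lam q₀ k).1 (latPt lam q₀ k).2 (ψ k) f‖ ^ 3 ≤
      8 * (|K.Rx| + 1) ^ 2 * Λ ^ 3 * |K.Bb 0| ^ 3 *
        (volume (Metric.closedBall (0 : E2) K.Rv)).toReal ^ 2 * lam ^ η * (volume F).toReal := by
  set vb : ℝ := (volume (Metric.closedBall (0 : E2) K.Rv)).toReal with hvb
  set V : ℝ := (volume F).toReal with hV
  have hV0 : 0 ≤ V := ENNReal.toReal_nonneg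
  have hVvb : V ≤ vb := oe_volF_le hFs
  have hl0 : (0 : ℝ) < lam := by linarith
  have hfi : Integrable f volume := memLp_one_iff_integrable.1 (oe_memLp_of_le hF hFs hf hfF 1)
  have hterm : ∀ k ∈ s, ‖opair lam Φ (latPt lam q₀ k).1 (latPt lam q₀ k).2 (ψ k) f‖ ^ 3
      ≤ |K.Bb 0| ^ 3 * vb ^ 2 * V := by
    intro k hk
    have h1 := oe_opair_norm_le (hs k hk).2.2 lam Φ (latPt lam q₀ k).1 (latPt lam q₀ k).2 hfi
    have h2 : K.Bb 0 * ∫ v, ‖f v‖ ≤ |K.Bb 0| * V :=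
      mul_le_mul (le_abs_self _) (oe_int_norm_le hF hFs hf hfF)
        (integral_nonneg fun v => norm_nonneg _) (abs_nonneg _)
    calc ‖opair lam Φ (latPt lam q₀ k).1 (latPt lam q₀ k).2 (ψ k) f‖ ^ 3
        ≤ (|K.Bb 0| * V) ^ 3 := pow_le_pow_left₀ (norm_nonneg _) (h1.trans h2) 3
      _ = |K.Bb 0| ^ 3 * V ^ 2 * V := by ring
      _ ≤ |K.Bb 0| ^ 3 * vb ^ 2 * V := by gcongr
  have hcard := oe_box_card_le lam (by linarith) K.Rx s
    (fun k hk => ⟨latPt lam q₀ k, boxIdx_latPt hl0 hq₀ k, Set.Ico_subset_Icc_self (hs k hk).1, (hs k hk).2.1⟩)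
  have hp1 : 1 ≤ lam ^ η := Real.one_le_rpow (by linarith) hη.le
  have hX : 0 ≤ |K.Bb 0| ^ 3 * vb ^ 2 * V := by positivity
  calc ∑ k ∈ s, ‖opair lam Φ (latPt lam q₀ k).1 (latPt lam q₀ k).2 (ψ k) f‖ ^ 3
      ≤ ∑ _k ∈ s, |K.Bb 0| ^ 3 * vb ^ 2 * V := Finset.sum_le_sum hterm
    _ = (s.card : ℝ) * (|K.Bb 0| ^ 3 * vb ^ 2 * V) := by rw [Finset.sum_const, nsmul_eq_mul]
    _ ≤ (8 * (|K.Rx| + 1) ^ 2 * Λ ^ 3) * (|K.Bb 0| ^ 3 * vb ^ 2 * V) := by
        apply mul_le_mul_of_nonneg_right _ hX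
        refine hcard.trans ?_
        gcongr
    _ ≤ (8 * (|K.Rx| + 1) ^ 2 * Λ ^ 3) * (|K.Bb 0| ^ 3 * vb ^ 2 * V) * lam ^ η := by
        apply le_mul_of_one_le_right _ hp1
        have : 0 ≤ Λ := by linarith
        positivity
    _ = 8 * (|K.Rx| + 1) ^ 2 * Λ ^ 3 * |K.Bb 0| ^ 3 * vb ^ 2 * lam ^ η * V := by ring

/-- large values of `λ` : the packet theorem at the endpoint, with the law `∝ ‖opair‖³` -/
theorem oe_large_lam {K : OscBd} {f : E2 → ℂ} {γ η CR lam : ℝ} (hγ : γ ≤ η) (hlam : 2 ≤ lam)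
    (Φ : ℝ → E2 → E2 → ℝ) (ζ : E2 → E2 → E2) (q₀ : ℝ × E2) (s : Finset Z3) (ψ : Z3 → E2 → ℂ)
    (hs : ∀ k ∈ s, (latPt lam q₀ k).1 ∈ Set.Ico (0 : ℝ) 1 ∧ ‖(latPt lam q₀ k).2‖ ≤ K.Rx ∧ IsEndAmp K (ψ k))
    (hne : s.Nonempty)
    (hpos : ∀ k ∈ s, opair lam Φ (latPt lam q₀ k).1 (latPt lam q₀ k).2 (ψ k) f ≠ 0)
    (F : Set E2) (hF : MeasurableSet F) (hFs : ∀ v ∈ F, ‖v‖ ≤ K.Rv) (hf : Measurable f)
    (hfF : ∀ v, ‖f v‖ ≤ F.indicator (fun _ => (1 : ℝ)) v)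
    (hP : ∀ T : PTest, T.Obeys (endBd K) (endEnv lam Φ ζ f) →
      score γ (endEnv lam Φ ζ f) T ≤ K0 γ 10 (endEnv lam Φ ζ f) + γ / 2 * T.t + η / 2)
    (hK0 : K0 γ 10 (endEnv lam Φ ζ f) ≤ (Real.log (volume F).toReal + CR) / Real.log lam) :
    ∑ k ∈ s, ‖opair lam Φ (latPt lam q₀ k).1 (latPt lam q₀ k).2 (ψ k) f‖ ^ 3
      ≤ Real.exp CR * lam ^ η * (volume F).toReal := by
  have hl0 : (0 : ℝ) < lam := by linarith
  have hL : 0 < Real.log lam := Real.log_pos (by linarith)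
  set V : ℝ := (volume F).toReal with hV
  have hfi : Integrable f volume := memLp_one_iff_integrable.1 (oe_memLp_of_le hF hFs hf hfF 1)
  obtain ⟨k₀, hk₀⟩ := hne
  -- `0 < V`
  have hVpos : 0 < V := by
    have hV0 : 0 ≤ V := ENNReal.toReal_nonneg
    rcases hV0.lt_or_eq with h | h
    · exact h
    · exfalso
      apply hpos k₀ hk₀
      have h1 := oe_opair_norm_le (hs k₀ hk₀).2.2 lam Φ (latPt lam q₀ k₀).1 (latPt lam q₀ k₀).2 hfi
      have h2 : ∫ v, ‖f v‖ = 0 :=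
        le_antisymm ((oe_int_norm_le hF hFs hf hfF).trans h.symm.le) (integral_nonneg fun v => norm_nonneg _)
      rw [h2, mul_zero] at h1
      exact norm_le_zero_iff.1 h1
  -- `0 ≤ Rv`
  have hRv : 0 ≤ K.Rv := by
    by_contra hneg
    apply hpos k₀ hk₀
    have hz : ∀ v, f v = 0 := by
      intro v
      by_contra hv
      exact hneg ((norm_nonneg v).trans (oe_supp_of_le hFs hfF v hv))
    rw [opair]
    simp [hz]
  have : Nonempty {k // k ∈ s} := ⟨⟨k₀, hk₀⟩⟩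
  set a : {k // k ∈ s} → ℝ :=
    fun i => ‖opair lam Φ (latPt lam q₀ i.1).1 (latPt lam q₀ i.1).2 (ψ i.1) f‖ ^ 3 with ha_def
  have ha : ∀ i, 0 < a i := fun i => pow_pos (norm_pos_iff.2 (hpos i.1 i.2)) 3
  have hob := endTest_obeys lam (by linarith) Φ ζ f q₀ ψ s (powLaw a ha) hRv hs hpos
  have h1 := hP _ hob
  rw [endTest_score γ lam (by linarith)] at h1
  have h2 : (powLaw a ha).ent (fun i => i) + (powLaw a ha).ev (fun i => Real.log (a i))
      = Real.log (∑ j, a j) := oe_powLaw_logsum a ha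
  have h3 : ∑ j, a j = ∑ k ∈ s, ‖opair lam Φ (latPt lam q₀ k).1 (latPt lam q₀ k).2 (ψ k) f‖ ^ 3 :=
    Finset.sum_coe_sort s (fun k => ‖opair lam Φ (latPt lam q₀ k).1 (latPt lam q₀ k).2 (ψ k) f‖ ^ 3)
  set A : ℝ := ∑ k ∈ s, ‖opair lam Φ (latPt lam q₀ k).1 (latPt lam q₀ k).2 (ψ k) f‖ ^ 3 with hA
  have hApos : 0 < A := by
    rw [← h3]
    exact Finset.sum_pos (fun j _ => ha j) Finset.univ_nonempty
  have ht : (endTest lam q₀ ψ s (powLaw a ha)).t = 1 := rfl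
  rw [ht, mul_one] at h1
  have h4 : Real.log A / Real.log lam ≤ (Real.log V + CR) / Real.log lam + γ / 2 + η / 2 := by
    have : (powLaw a ha).ent (fun i => i) + (powLaw a ha).ev (fun i => Real.log
        (‖opair lam Φ (latPt lam q₀ i.1).1 (latPt lam q₀ i.1).2 (ψ i.1) f‖ ^ 3)) = Real.log A := by
      rw [← h3]; exact h2
    rw [this] at h1
    linarith
  have h5 : Real.log A ≤ Real.log V + CR + η * Real.log lam := by
    have h6 : Real.log A ≤ ((Real.log V + CR) / Real.log lam + γ / 2 + η / 2) * Real.log lam :=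
      (div_le_iff₀ hL).1 h4
    have h7 : ((Real.log V + CR) / Real.log lam + γ / 2 + η / 2) * Real.log lam
        = Real.log V + CR + (γ / 2 + η / 2) * Real.log lam := by
      field_simp
      ring
    have h8 : (γ / 2 + η / 2) * Real.log lam ≤ η * Real.log lam :=
      mul_le_mul_of_nonneg_right (by linarith) hL.le
    linarith
  calc A = Real.exp (Real.log A) := (Real.exp_log hApos).symm
    _ ≤ Real.exp (Real.log V + CR + η * Real.log lam) := Real.exp_le_exp.2 h5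
    _ = Real.exp CR * lam ^ η * V := by
        rw [Real.exp_add, Real.exp_add, Real.exp_log hVpos, Real.rpow_def_of_pos hl0, mul_comm η]
        ring

/-- **packet growth ⟹ the endpoint cubic sum** -/
theorem endSum_of_prate (H : ∀ γ : ℝ, 0 < γ → γ < 1 → PRate γ (γ / 2)) : EndSum := by
  intro K h0 η hη
  set γ : ℝ := min η (1 / 2) with hγ
  have hγ0 : 0 < γ := lt_min hη (by norm_num)
  have hγ1 : γ < 1 := lt_of_le_of_lt (min_le_right _ _) (by norm_num)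
  obtain ⟨ε₀, he0, _he1, hP⟩ := H γ hγ0 hγ1 (endBd K) (endBd_good h0) (η / 2) (by positivity)
  obtain ⟨CR, hCR⟩ := oe_K0_le K h0
  set C₂ : ℝ := 8 * (|K.Rx| + 1) ^ 2 * (ε₀⁻¹) ^ 3 * |K.Bb 0| ^ 3 *
    (volume (Metric.closedBall (0 : E2) K.Rv)).toReal ^ 2 with hC₂
  refine ⟨max (Real.exp CR) C₂, ?_⟩
  intro lam hlam Φ ζ hΦ q₀ hq₀ s₀ ψ hs₀ F hF hFs f hf hfF
  have hl0 : (0 : ℝ) < lam := by linarith
  have hV0 : 0 ≤ (volume F).toReal := ENNReal.toReal_nonneg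
  have hp0 : 0 ≤ lam ^ η := (Real.rpow_pos_of_pos hl0 η).le
  by_cases hsmall : lam ≤ ε₀⁻¹
  · refine (oe_small_lam hlam hsmall hη Φ q₀ hq₀ s₀ ψ hs₀ F hF hFs f hf hfF).trans ?_
    have : C₂ ≤ max (Real.exp CR) C₂ := le_max_right _ _
    gcongr
  · push Not at hsmall
    -- discard the vanishing pairings
    set s : Finset Z3 :=
      s₀.filter (fun k => opair lam Φ (latPt lam q₀ k).1 (latPt lam q₀ k).2 (ψ k) f ≠ 0) with hsdef
    have hsum : ∑ k ∈ s₀, ‖opair lam Φ (latPt lam q₀ k).1 (latPt lam q₀ k).2 (ψ k) f‖ ^ 3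
        = ∑ k ∈ s, ‖opair lam Φ (latPt lam q₀ k).1 (latPt lam q₀ k).2 (ψ k) f‖ ^ 3 := by
      rw [hsdef, Finset.sum_filter]
      refine Finset.sum_congr rfl fun k _ => ?_
      by_cases hk : opair lam Φ (latPt lam q₀ k).1 (latPt lam q₀ k).2 (ψ k) f = 0
      · simp [hk]
      · simp [hk]
    rw [hsum]
    have hs : ∀ k ∈ s, (latPt lam q₀ k).1 ∈ Set.Ico (0 : ℝ) 1 ∧ ‖(latPt lam q₀ k).2‖ ≤ K.Rx ∧
        IsEndAmp K (ψ k) := fun k hk => hs₀ k (Finset.mem_filter.1 hk).1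
    have hpos : ∀ k ∈ s, opair lam Φ (latPt lam q₀ k).1 (latPt lam q₀ k).2 (ψ k) f ≠ 0 :=
      fun k hk => (Finset.mem_filter.1 hk).2
    have hC0 : 0 ≤ max (Real.exp CR) C₂ := le_max_of_le_left (Real.exp_pos _).le
    rcases s.eq_empty_or_nonempty with hemp | hne
    · rw [hemp, Finset.sum_empty]
      positivity
    · obtain ⟨k₀, hk₀⟩ := hne
      have hf2 : MemLp f 2 volume := oe_memLp_of_le hF hFs hf hfF 2
      have hE : (endEnv lam Φ ζ f).Obeys (endBd K) :=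
        endEnv_obeys lam Φ ζ f (by linarith) hΦ hf2 (oe_supp_of_le hFs hfF)
      have hεlt : (endEnv lam Φ ζ f).ε < ε₀ := by
        change lam⁻¹ < ε₀
        exact inv_lt_of_inv_lt₀ he0 hsmall
      have h1 := oe_large_lam (K := K) (f := f) (γ := γ) (η := η) (CR := CR) (min_le_left _ _) hlam Φ ζ q₀ s ψ
        hs ⟨k₀, hk₀⟩ hpos F hF hFs hf hfF
        (fun T hT => hP (endEnv lam Φ ζ f) T hεlt hE hT)
        (hCR γ hγ0 hγ1 lam hlam Φ ζ hΦ F hF hFs f hf hfF (oe_int_sq_pos hf2 (hpos k₀ hk₀)))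
      refine h1.trans ?_
      have : Real.exp CR ≤ max (Real.exp CR) C₂ := le_max_left _ _
      gcongr

/-- **BR Theorem 9.1 ⟹ Theorem 12.1** -/
theorem osc_of_prate_main (H : ∀ γ : ℝ, 0 < γ → γ < 1 → PRate γ (γ / 2)) : OSC :=
  osc_of_endSum (endSum_of_prate H)

end Claimed.Agent.R255.Osc
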