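import Claimed.Agent.R255.Osc.EndEnv

/-!
# R255 / OSC / EndRect : velocity rectangles of root apertures        (architect helper17)   LEAVES L-OP-RECT1, L-OP-RECT2

Paper-free, Mathlib only + the definitions `InRect`, `ip`, `tang`, `nrm`, `Geo` (`Base/Classical`), `toP`, `Site`, `CanC`, `mass`, `pairing` (`Pkt/Base`).
* `vRect g ε κ = {v | toP v - g.vc ∈ κ · Rect_th(ε^b, ε^a)}` : a rotated rectangle with half-sides `κ ε^b`, `κ ε^a`: measurable, volume `4 κ² ε^(a+b)`.
  PLAN (RECT1): `v ↦ (ip (toP v) (tang th), ip (toP v) (nrm th))` is a linear isometry of `E2` (rotation) / a linear map of determinant `cos² + sin² = 1`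
  (`LinearIsometryEquiv.measurePreserving`, or `Measure.addHaar_preimage_linearMap`, plus `EuclideanSpace.volume_preserving_measurableEquiv`, `Real.volume_pi_Icc` / `Measure.prod_prod`); only `≤` is needed.
* (RECT2) `oe_supp_vRect` : the window `ψ((v - V)/ρ)` of a canonical site (`supp ψ ⊆ B(0,100)`) whose centre lies in the rectangle (`κ = 1`) lives in the rectangle with `κ = 101`, if `ρ ≤ ε^a, ε^b`:
  `|ip (toP w) (tang th)| ≤ ‖w‖` (Cauchy-Schwarz, `EuclideanSpace.norm_eq`, `Fin.sum_univ_two`).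
  `oe_mass_indicator` : the mass only sees the input on the window.
-/

set_option autoImplicit false

namespace Claimed.Agent.R255.Osc

open MeasureTheory Claimed.Agent.R255.Pkt

/-- the velocity rectangle of a read-out, enlarged by the factor `κ` -/
def vRect (g : Geo) (ε κ : ℝ) : Set E2 := {v | InRect κ ε g.b g.a g.th (toP v - g.vc)}

theorem oe_vRect_measurable (g : Geo) (ε κ : ℝ) : MeasurableSet (vRect g ε κ) := by
  have h1 : Continuous fun v : E2 => ip (toP v - g.vc) (tang g.th) := by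
    unfold ip toP
    simp only [Prod.fst_sub, Prod.snd_sub]
    fun_prop
  have h2 : Continuous fun v : E2 => ip (toP v - g.vc) (nrm g.th) := by
    unfold ip toP
    simp only [Prod.fst_sub, Prod.snd_sub]
    fun_prop
  have h3 : IsClosed (vRect g ε κ) := by
    unfold vRect InRect
    exact (isClosed_le h1.abs continuous_const).inter (isClosed_le h2.abs continuous_const)
  exact h3.measurableSet

/-- the rotation matrix of the frame of angle `th` -/
noncomputable def oeRotM (th : ℝ) : Matrix (Fin 2) (Fin 2) ℝ :=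
  !![Real.cos th, Real.sin th; - Real.sin th, Real.cos th]

theorem oe_rotM_det (th : ℝ) : (oeRotM th).det = 1 := by
  unfold oeRotM
  rw [Matrix.det_fin_two_of]
  have := Real.sin_sq_add_cos_sq th
  nlinarith

theorem oe_rot_preimage_volume (th : ℝ) (S : Set (Fin 2 → ℝ)) (hS : MeasurableSet S) :
    volume ((fun v : E2 => Matrix.toLin' (oeRotM th) (WithLp.ofLp v)) ⁻¹' S) = volume S := by
  have hdet : (oeRotM th).det ≠ 0 := by rw [oe_rotM_det]; exact one_ne_zero
  have h1 := Real.map_matrix_volume_pi_eq_smul_volume_pi hdet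
  rw [oe_rotM_det, inv_one, abs_one, ENNReal.ofReal_one, one_smul] at h1
  have hm : Measurable (Matrix.toLin' (oeRotM th)) :=
    (LinearMap.continuous_on_pi _).measurable
  have h2 : volume (Matrix.toLin' (oeRotM th) ⁻¹' S) = volume S := by
    rw [← Measure.map_apply hm hS, h1]
  have h3 := (PiLp.volume_preserving_ofLp (Fin 2)).measure_preimage (hm hS).nullMeasurableSet
  rw [← h2, ← h3]
  rfl

theorem oe_vRect_volume_le (g : Geo) (ε κ : ℝ) (hε : 0 < ε) (hκ : 0 ≤ κ) :
    volume (vRect g ε κ) ≤ ENNReal.ofReal (4 * κ ^ 2 * ε ^ (g.a + g.b)) := by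
  set lo : Fin 2 → ℝ := ![ip g.vc (tang g.th) - κ * ε ^ g.b, ip g.vc (nrm g.th) - κ * ε ^ g.a] with hlo
  set hi : Fin 2 → ℝ := ![ip g.vc (tang g.th) + κ * ε ^ g.b, ip g.vc (nrm g.th) + κ * ε ^ g.a] with hhi
  have hsub : vRect g ε κ ⊆ (fun v : E2 => Matrix.toLin' (oeRotM g.th) (WithLp.ofLp v)) ⁻¹' (Set.Icc lo hi) := by
    intro v hv
    obtain ⟨h1, h2⟩ := hv
    rw [abs_le] at h1 h2
    simp only [ip, toP, tang, nrm, Prod.fst_sub, Prod.snd_sub] at h1 h2
    rw [Set.mem_preimage, Set.mem_Icc, Pi.le_def, Pi.le_def]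
    constructor
    · intro i
      fin_cases i
      · simp [hlo, oeRotM, Matrix.toLin'_apply, Matrix.mulVec, dotProduct, Fin.sum_univ_two, ip, tang]
        linarith [h1.1]
      · simp [hlo, oeRotM, Matrix.toLin'_apply, Matrix.mulVec, dotProduct, Fin.sum_univ_two, ip, nrm]
        linarith [h2.1]
    · intro i
      fin_cases i
      · simp [hhi, oeRotM, Matrix.toLin'_apply, Matrix.mulVec, dotProduct, Fin.sum_univ_two, ip, tang]
        linarith [h1.2]
      · simp [hhi, oeRotM, Matrix.toLin'_apply, Matrix.mulVec, dotProduct, Fin.sum_univ_two, ip, nrm]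
        linarith [h2.2]
  refine (measure_mono hsub).trans ?_
  rw [oe_rot_preimage_volume g.th _ measurableSet_Icc, Real.volume_Icc_pi, Fin.prod_univ_two]
  have hb : 0 ≤ κ * ε ^ g.b := mul_nonneg hκ (Real.rpow_pos_of_pos hε _).le
  rw [← ENNReal.ofReal_mul (by simp [hlo, hhi]; linarith)]
  refine ENNReal.ofReal_le_ofReal (le_of_eq ?_)
  simp only [hlo, hhi, Matrix.cons_val_zero, Matrix.cons_val_one]
  rw [Real.rpow_add hε]
  ring

theorem oe_ip_tang_le (w : E2) (th : ℝ) : |ip (toP w) (tang th)| ≤ ‖w‖ := by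
  refine abs_le_of_sq_le_sq ?_ (norm_nonneg w)
  rw [EuclideanSpace.norm_sq_eq, Fin.sum_univ_two]
  simp only [ip, toP, tang, Real.norm_eq_abs, sq_abs]
  have h := Real.sin_sq_add_cos_sq th
  nlinarith [sq_nonneg (w 0 * Real.sin th - w 1 * Real.cos th)]

theorem oe_ip_nrm_le (w : E2) (th : ℝ) : |ip (toP w) (nrm th)| ≤ ‖w‖ := by
  refine abs_le_of_sq_le_sq ?_ (norm_nonneg w)
  rw [EuclideanSpace.norm_sq_eq, Fin.sum_univ_two]
  simp only [ip, toP, nrm, Real.norm_eq_abs, sq_abs]
  have h := Real.sin_sq_add_cos_sq th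
  nlinarith [sq_nonneg (w 0 * Real.cos th + w 1 * Real.sin th)]

theorem oe_supp_vRect {M : ℕ} {s : Site} (hψ : CanC M s.ψ) {g : Geo} {ε ρ : ℝ} (hρ : 0 < ρ)
    (hb : ρ ≤ ε ^ g.b) (ha : ρ ≤ ε ^ g.a) (hV : InRect 1 ε g.b g.a g.th (toP s.V - g.vc))
    (v : E2) (hv : s.ψ (ρ⁻¹ • (v - s.V)) ≠ 0) : v ∈ vRect g ε 101 := by
  have h1 := hψ.supp _ hv
  rw [norm_smul, Real.norm_eq_abs, abs_of_pos (inv_pos.2 hρ), inv_mul_le_iff₀ hρ] at h1
  have h2 := oe_ip_tang_le (v - s.V) g.th
  have h3 := oe_ip_nrm_le (v - s.V) g.th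
  obtain ⟨hV1, hV2⟩ := hV
  have e1 : ip (toP v - g.vc) (tang g.th) = ip (toP s.V - g.vc) (tang g.th) + ip (toP (v - s.V)) (tang g.th) := by
    simp only [ip, toP, Prod.fst_sub, Prod.snd_sub, PiLp.sub_apply]
    ring
  have e2 : ip (toP v - g.vc) (nrm g.th) = ip (toP s.V - g.vc) (nrm g.th) + ip (toP (v - s.V)) (nrm g.th) := by
    simp only [ip, toP, Prod.fst_sub, Prod.snd_sub, PiLp.sub_apply]
    ring
  refine ⟨?_, ?_⟩
  · rw [e1]
    refine (abs_add_le _ _).trans ?_
    linarith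
  · rw [e2]
    refine (abs_add_le _ _).trans ?_
    linarith

theorem oe_mass_indicator (lam ρ : ℝ) (Φ : ℝ → E2 → E2 → ℝ) (f : E2 → ℂ) (s : Site) (S : Set E2)
    (hS : ∀ v, s.ψ (ρ⁻¹ • (v - s.V)) ≠ 0 → v ∈ S) :
    mass lam ρ Φ (S.indicator f) s = mass lam ρ Φ f s := by
  unfold mass pairing
  congr 3
  refine integral_congr_ae (Filter.Eventually.of_forall fun v => ?_)
  by_cases hv : v ∈ S
  · simp only [Set.indicator_of_mem hv]
  · have h0 : s.ψ (ρ⁻¹ • (v - s.V)) = 0 := by
      by_contra hne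
      exact hv (hS v hne)
    simp only [h0, mul_zero, zero_mul]

end Claimed.Agent.R255.Osc
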