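import Claimed.Agent.R255.Osc.EndRect
import Claimed.Agent.R255.Osc.EndAbs
import Claimed.Agent.R255.Pk.Bridge

/-!
# R255 / OSC / EndRoot : `K_0(f) ≤ logeps |F| + C / log λ` for `|f| ≤ 1_F`   (BR (12.restricted-root-score))        (architect helper17)   LEAVES L-OP-ROOT1..4

Everything at the endpoint environment `E = endEnv lam Φ ζ f` (`ε = λ⁻¹`, `H = L = 1`, `u_0 = 1/2`, `ρ_0 = σ_0 = λ^(-1/2)`).   Black boxes: `pk_site_bessel`, `pk_local_of_sep`, `pk_canC_iff` (`Pk/Bridge`, helper91),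
`EndEnv`, `EndRect`, `EndAbs`.
* ROOT1 `oe_root_bessel` : Bessel for the active sites of a canonical root test, ARBITRARY input `h`.
  PLAN: `pk_site_bessel K h0 100 (fun _ => 1)` with `ρ = E.rho 0`, `c = 0`, `m = 1`; amplitudes: `(pk_canC_iff 10 _).1` + `PkAmp.mono` (`3 ≤ 10`); local count: `pk_local_of_sep` + `endEnv_rho_zero_inv`; `CB = C + 1`.
* ROOT2 `oe_cap_of_bessel` : apply the Bessel bound to `h = 1_{vRect g ε 101} f`: the masses do not change (`oe_mass_indicator`, `oe_supp_vRect`), `∫ ‖h‖² ≤ vol (vRect) ≤ 4·101² ε^(a+b)`.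
* ROOT3 `oe_root_score_le` : `oe_score_abs` with `m i = E.m 0 (T.site i)`, `S₀ = active sites`, `S d = active sites compatible with T.geo d`, `ℓ = log λ`, `Mt = CB |F|`, `Mc = 40804 CB`;
  `ε^(a+b) = exp (-(ℓ (a+b)))`; `∫ ‖f‖² ≤ |F|`; `CR = log CB + ½ log (40804 CB)`; `|F| > 0` because a positive mass exists.
* ROOT4 `oe_K0_le` : `csSup_le`; the norm option: `(3/2) log ‖f‖₂² ≤ log |F| + ½ log |F| ≤ log |F| + ½ |log vol(ball Rv)|`.
-/

set_option autoImplicit false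

namespace Claimed.Agent.R255.Osc

open MeasureTheory Claimed.Agent.R255 Claimed.Agent.R255.Pkt

theorem oe_root_bessel (K : OscBd) (h0 : 0 < K.a0) : ∃ CB : ℝ, 0 < CB ∧
    ∀ lam : ℝ, 1 ≤ lam → ∀ (Φ : ℝ → E2 → E2 → ℝ) (ζ : E2 → E2 → E2), IsPhase K Φ ζ →
      ∀ (f : E2 → ℂ) (T : PTest), T.IsRoot 10 (endEnv lam Φ ζ f) →
        ∀ s : Finset T.ι, (∀ i ∈ s, T.act i) → ∀ h : E2 → ℂ, MemLp h 2 volume →
          ∑ i ∈ s, mass lam ((endEnv lam Φ ζ f).rho 0) Φ h (T.site i) ≤ CB * ∫ v, ‖h v‖ ^ 2 := by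
  obtain ⟨C, hC0, hC⟩ := pk_site_bessel K h0 100 (fun _ => 1)
  refine ⟨C + 1, by linarith, fun lam hlam Φ ζ hΦ f T hT s hs h hh => ?_⟩
  have hl0 : 0 < lam := lt_of_lt_of_le one_pos hlam
  obtain ⟨hρ0, hρ1⟩ := endEnv_rho_zero_pos lam Φ ζ f hlam
  have hloc := pk_local_of_sep s (fun i => (T.site i).V) (fun i => (T.site i).X)
    ((endEnv lam Φ ζ f).rho 0) (fun i hi j hj hij => hT.sep i j (hs i hi) (hs j hj) hij)
  have h1 := hC Φ ζ hΦ lam ((endEnv lam Φ ζ f).rho 0) 0 hl0 hρ0 hρ1 le_rfl zero_le_one T.ι s T.site 1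
    (fun i hi => hT.time i (hs i hi))
    (fun i hi => ((pk_canC_iff 10 _).1 (hT.amp i (hs i hi))).mono (by norm_num) le_rfl (fun _ _ => le_rfl))
    (by rw [endEnv_rho_zero_inv lam Φ ζ f hl0]; exact hloc) h hh
  have hint : 0 ≤ ∫ v, ‖h v‖ ^ 2 := integral_nonneg fun v => by positivity
  refine h1.trans ?_
  rw [Nat.cast_one, mul_one]
  exact mul_le_mul_of_nonneg_right (by linarith) hint

/-- a measurable function dominated by the indicator of a set of finite measure: `L²`, `∫ ‖h‖² ≤ |S|`. -/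
theorem oe_ind_dom {S : Set E2} (hS : MeasurableSet S) (hfin : volume S ≠ ⊤) {h : E2 → ℂ} (hh : Measurable h)
    (hb : ∀ v, ‖h v‖ ≤ S.indicator (fun _ => (1 : ℝ)) v) :
    MemLp h 2 volume ∧ ∫ v, ‖h v‖ ^ 2 ≤ (volume S).toReal := by
  have h1 : MemLp (S.indicator fun _ => (1 : ℝ)) 2 volume := memLp_indicator_const 2 hS (1 : ℝ) (Or.inr hfin)
  refine ⟨h1.of_le hh.aestronglyMeasurable (Filter.Eventually.of_forall fun v => ?_), ?_⟩
  · refine (hb v).trans (le_abs_self _)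
  · have h2 : Integrable (S.indicator fun _ => (1 : ℝ)) volume :=
      (integrable_indicator_iff hS).2 (integrableOn_const hfin)
    have h3 : ∫ v, ‖h v‖ ^ 2 ≤ ∫ v, S.indicator (fun _ => (1 : ℝ)) v := by
      refine integral_mono_of_nonneg (Filter.Eventually.of_forall fun v => by positivity) h2
        (Filter.Eventually.of_forall fun v => ?_)
      have h4 := hb v
      show ‖h v‖ ^ 2 ≤ S.indicator (fun _ => (1 : ℝ)) v
      by_cases hv : v ∈ S
      · rw [Set.indicator_of_mem hv] at h4 ⊢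
        exact pow_le_one₀ (norm_nonneg _) h4
      · rw [Set.indicator_of_notMem hv] at h4 ⊢
        have : ‖h v‖ = 0 := le_antisymm h4 (norm_nonneg _)
        rw [this]
        norm_num
    refine h3.trans (le_of_eq ?_)
    rw [integral_indicator hS, setIntegral_const]
    simp [Measure.real]

theorem oe_cap_of_bessel {ι : Type} (s : Finset ι) (site : ι → Site) (lam ρ ε CB : ℝ)
    (Φ : ℝ → E2 → E2 → ℝ) (f : E2 → ℂ) (g : Geo) (hCB : 0 ≤ CB) (hε : 0 < ε) (hρ : 0 < ρ)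
    (hf : Measurable f) (hf1 : ∀ v, ‖f v‖ ≤ 1)
    (hB : ∀ h : E2 → ℂ, MemLp h 2 volume → ∑ i ∈ s, mass lam ρ Φ h (site i) ≤ CB * ∫ v, ‖h v‖ ^ 2)
    (hcan : ∀ i ∈ s, CanC 10 (site i).ψ) (hb : ρ ≤ ε ^ g.b) (ha : ρ ≤ ε ^ g.a)
    (hV : ∀ i ∈ s, InRect 1 ε g.b g.a g.th (toP (site i).V - g.vc)) :
    ∑ i ∈ s, mass lam ρ Φ f (site i) ≤ CB * (4 * 101 ^ 2 * ε ^ (g.a + g.b)) := by
  have hS := oe_vRect_measurable g ε 101
  have hvol := oe_vRect_volume_le g ε 101 hε (by norm_num)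
  have hfin : volume (vRect g ε 101) ≠ ⊤ := (hvol.trans_lt ENNReal.ofReal_lt_top).ne
  obtain ⟨m1, m2⟩ := oe_ind_dom hS hfin (h := (vRect g ε 101).indicator f) (hf.indicator hS) (fun v => by
    by_cases hv : v ∈ vRect g ε 101
    · rw [Set.indicator_of_mem hv, Set.indicator_of_mem hv]
      exact hf1 v
    · rw [Set.indicator_of_notMem hv, Set.indicator_of_notMem hv, norm_zero])
  have e : ∑ i ∈ s, mass lam ρ Φ f (site i) = ∑ i ∈ s, mass lam ρ Φ ((vRect g ε 101).indicator f) (site i) :=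
    Finset.sum_congr rfl fun i hi =>
      (oe_mass_indicator lam ρ Φ f (site i) _ (oe_supp_vRect (hcan i hi) hρ hb ha (hV i hi))).symm
  rw [e]
  refine (hB _ m1).trans (mul_le_mul_of_nonneg_left (m2.trans ?_) hCB)
  exact ENNReal.toReal_le_of_le_ofReal (by positivity) hvol

theorem oe_root_score_le (K : OscBd) (h0 : 0 < K.a0) : ∃ CR : ℝ, ∀ γ : ℝ, 0 < γ → γ < 1 →
    ∀ lam : ℝ, 2 ≤ lam → ∀ (Φ : ℝ → E2 → E2 → ℝ) (ζ : E2 → E2 → E2), IsPhase K Φ ζ →
      ∀ F : Set E2, MeasurableSet F → (∀ v ∈ F, ‖v‖ ≤ K.Rv) →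
        ∀ f : E2 → ℂ, Measurable f → (∀ v, ‖f v‖ ≤ F.indicator (fun _ => (1 : ℝ)) v) →
          ∀ T : PTest, T.IsRoot 10 (endEnv lam Φ ζ f) →
            score γ (endEnv lam Φ ζ f) T ≤ (Real.log (volume F).toReal + CR) / Real.log lam := by
  classical
  obtain ⟨CB, hCB, hbes⟩ := oe_root_bessel K h0
  refine ⟨Real.log CB + 1 / 2 * Real.log (40804 * CB), fun γ hγ _ lam hlam Φ ζ hΦ F hF hFb f hf hfb T hT => ?_⟩
  have hl0 : 0 < lam := by linarith
  have hl1 : 1 ≤ lam := by linarith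
  have hℓ : 0 < Real.log lam := Real.log_pos (by linarith)
  have hFfin : volume F ≠ ⊤ := by
    have hsub : F ⊆ Metric.closedBall (0 : E2) K.Rv := fun v hv => by
      rw [mem_closedBall_zero_iff]
      exact hFb v hv
    exact ((measure_mono hsub).trans_lt measure_closedBall_lt_top).ne
  obtain ⟨mf, nf⟩ := oe_ind_dom hF hFfin hf hfb
  have hf1 : ∀ v, ‖f v‖ ≤ 1 := fun v => (hfb v).trans (Set.indicator_le_self' (fun _ _ => zero_le_one) v)
  have hpp : ∀ o, T.P.p o ≠ 0 → 0 < T.P.p o := fun o ho => lt_of_le_of_ne (T.P.nonneg o) (Ne.symm ho)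
  have hm_eq : ∀ s : Site, (endEnv lam Φ ζ f).m 0 s = mass lam ((endEnv lam Φ ζ f).rho 0) Φ f s := by
    intro s
    unfold PEnv.m
    rw [endEnv_lam _ _ _ _ hl0]
    rfl
  have hMt : ∑ i ∈ Finset.univ.filter T.act, (endEnv lam Φ ζ f).m 0 (T.site i) ≤ CB * (volume F).toReal := by
    simp only [hm_eq]
    exact (hbes lam hl1 Φ ζ hΦ f T hT _ (fun i hi => (Finset.mem_filter.1 hi).2) f mf).trans
      (mul_le_mul_of_nonneg_left nf hCB.le)
  have hMc : ∀ o, T.P.p o ≠ 0 →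
      ∑ i ∈ Finset.univ.filter (fun i => T.act i ∧ GeoOK (T.geo (T.D o)) 1 (endEnv lam Φ ζ f).ε 0 (endEnv lam Φ ζ f).L
        ((endEnv lam Φ ζ f).u 0) (T.site i)), (endEnv lam Φ ζ f).m 0 (T.site i)
        ≤ 40804 * CB * Real.exp (-(Real.log lam * ((T.geo (T.D o)).a + (T.geo (T.D o)).b))) := by
    intro o ho
    have hg := hT.geo o (hpp o ho)
    have ha2 : (T.geo (T.D o)).a ≤ 1 / 2 := by
      have := hg.2.2.2.1
      rwa [endEnv_u_zero] at this
    have hb2 : (T.geo (T.D o)).b ≤ 1 / 2 := hg.2.1.trans ha2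
    simp only [hm_eq]
    have hε : 0 < (endEnv lam Φ ζ f).ε := inv_pos.2 hl0
    refine (oe_cap_of_bessel _ T.site lam ((endEnv lam Φ ζ f).rho 0) (endEnv lam Φ ζ f).ε CB Φ f (T.geo (T.D o)) hCB.le
      hε (endEnv_rho_zero_pos lam Φ ζ f hl1).1 hf hf1
      (fun h hh => hbes lam hl1 Φ ζ hΦ f T hT _ (fun i hi => (Finset.mem_filter.1 hi).2.1) h hh)
      (fun i hi => hT.amp i (Finset.mem_filter.1 hi).2.1)
      (endEnv_rho_zero_le lam Φ ζ f hl1 hb2) (endEnv_rho_zero_le lam Φ ζ f hl1 ha2)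
      (fun i hi => (Finset.mem_filter.1 hi).2.2.2.2.2.2.2.1)).trans (le_of_eq ?_)
    have e : (endEnv lam Φ ζ f).ε ^ ((T.geo (T.D o)).a + (T.geo (T.D o)).b) =
        Real.exp (-(Real.log lam * ((T.geo (T.D o)).a + (T.geo (T.D o)).b))) := by
      rw [Real.rpow_def_of_pos hε]
      show Real.exp (Real.log lam⁻¹ * _) = _
      rw [Real.log_inv, neg_mul]
    rw [e]
    ring
  have key := oe_score_abs T.P T.O T.D (fun i => (endEnv lam Φ ζ f).m 0 (T.site i)) (Finset.univ.filter T.act)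
    (fun d => Finset.univ.filter (fun i => T.act i ∧ GeoOK (T.geo d) 1 (endEnv lam Φ ζ f).ε 0 (endEnv lam Φ ζ f).L
        ((endEnv lam Φ ζ f).u 0) (T.site i)))
    (fun d => (T.geo d).a) (fun d => (T.geo d).b) γ (Real.log lam) (CB * (volume F).toReal) (40804 * CB) hℓ hγ.le
    (fun i => sq_nonneg _) (fun o ho => hT.mpos o (hpp o ho))
    (fun o ho => Finset.mem_filter.2 ⟨Finset.mem_univ _, o, hpp o ho, rfl⟩)
    (fun o ho => Finset.mem_filter.2 ⟨Finset.mem_univ _, ⟨o, hpp o ho, rfl⟩, hT.geo o (hpp o ho)⟩)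
    (fun o ho => (hT.geo o (hpp o ho)).2.1) hMt hMc
  have hFpos : 0 < (volume F).toReal := by
    obtain ⟨o₀, ho₀⟩ := ent_exists_supp T.P
    have h1 : 0 < (endEnv lam Φ ζ f).m 0 (T.site (T.O o₀)) := hT.mpos o₀ (hpp o₀ ho₀)
    have h2 : (endEnv lam Φ ζ f).m 0 (T.site (T.O o₀)) ≤
        ∑ i ∈ Finset.univ.filter T.act, (endEnv lam Φ ζ f).m 0 (T.site i) :=
      Finset.single_le_sum (f := fun i => (endEnv lam Φ ζ f).m 0 (T.site i)) (fun i _ => sq_nonneg _)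
        (Finset.mem_filter.2 ⟨Finset.mem_univ _, o₀, hpp o₀ ho₀, rfl⟩)
    exact (pos_iff_pos_of_mul_pos (h1.trans_le (h2.trans hMt))).1 hCB
  unfold score
  rw [hT.t0, endEnv_lg]
  refine key.trans (le_of_eq ?_)
  rw [Real.log_mul hCB.ne' hFpos.ne']
  ring

theorem oe_K0_le (K : OscBd) (h0 : 0 < K.a0) : ∃ CR : ℝ, ∀ γ : ℝ, 0 < γ → γ < 1 →
    ∀ lam : ℝ, 2 ≤ lam → ∀ (Φ : ℝ → E2 → E2 → ℝ) (ζ : E2 → E2 → E2), IsPhase K Φ ζ →
      ∀ F : Set E2, MeasurableSet F → (∀ v ∈ F, ‖v‖ ≤ K.Rv) →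
        ∀ f : E2 → ℂ, Measurable f → (∀ v, ‖f v‖ ≤ F.indicator (fun _ => (1 : ℝ)) v) →
          0 < ∫ v, ‖f v‖ ^ 2 →
            K0 γ 10 (endEnv lam Φ ζ f) ≤ (Real.log (volume F).toReal + CR) / Real.log lam := by
  obtain ⟨CR, hCR⟩ := oe_root_score_le K h0
  refine ⟨|CR| + 1 / 2 * |Real.log (volume (Metric.closedBall (0 : E2) K.Rv)).toReal|,
    fun γ hγ hγ1 lam hlam Φ ζ hΦ F hF hFb f hf hfb hpos => ?_⟩
  have hℓ : 0 < Real.log lam := Real.log_pos (by linarith)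
  have hsub : F ⊆ Metric.closedBall (0 : E2) K.Rv := fun v hv => by
    rw [mem_closedBall_zero_iff]
    exact hFb v hv
  have hBfin : volume (Metric.closedBall (0 : E2) K.Rv) ≠ ⊤ := measure_closedBall_lt_top.ne
  have hFfin : volume F ≠ ⊤ := ((measure_mono hsub).trans_lt measure_closedBall_lt_top).ne
  obtain ⟨-, nf⟩ := oe_ind_dom hF hFfin hf hfb
  have hFpos : 0 < (volume F).toReal := hpos.trans_le nf
  have hFB : (volume F).toReal ≤ (volume (Metric.closedBall (0 : E2) K.Rv)).toReal :=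
    ENNReal.toReal_mono hBfin (measure_mono hsub)
  unfold K0
  refine csSup_le ⟨_, Or.inl rfl⟩ fun x hx => ?_
  rcases hx with rfl | ⟨T, hT, rfl⟩
  · rw [endEnv_lg]
    have h1 : Real.log (endEnv lam Φ ζ f).nrm2 ≤ Real.log (volume F).toReal := Real.log_le_log hpos nf
    have h2 : Real.log (volume F).toReal ≤ |Real.log (volume (Metric.closedBall (0 : E2) K.Rv)).toReal| :=
      (Real.log_le_log hFpos hFB).trans (le_abs_self _)
    rw [← mul_div_assoc]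
    refine div_le_div_of_nonneg_right ?_ hℓ.le
    have := abs_nonneg CR
    linarith
  · refine (hCR γ hγ hγ1 lam hlam Φ ζ hΦ F hF hFb f hf hfb T hT).trans ?_
    refine div_le_div_of_nonneg_right ?_ hℓ.le
    have := le_abs_self CR
    have := abs_nonneg (Real.log (volume (Metric.closedBall (0 : E2) K.Rv)).toReal)
    linarith

end Claimed.Agent.R255.Osc
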