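import Claimed.Agent.R255.Osc.EndSum

/-!
# R255 / OSC / FromEndA1 : the boxes of side `1/λ`        (architect helper17)   LEAF L-OE-A1

Paper-free, Mathlib only.  The fibres of `boxIdx lam : ℝ × E2 → ℤ³` are boxes `[k₀/λ,(k₀+1)/λ) × {x | x 0 ∈ [k₁/λ,(k₁+1)/λ), x 1 ∈ [k₂/λ,(k₂+1)/λ)}` of volume `1/λ³`.
HINTS: `Int.floor_eq_iff`, `Measure.volume_eq_prod`, `Measure.prod_prod`, `EuclideanSpace.volume_preserving_measurableEquiv` (or `PiLp.volume_preserving_ofLp`), `Real.volume_pi_Ico`, `Real.volume_Ico`.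
-/

set_option autoImplicit false

namespace Claimed.Agent.R255.Osc

open MeasureTheory

theorem oe_boxIdx_measurable (lam : ℝ) : Measurable (boxIdx lam) := by
  unfold boxIdx
  have h0 : Measurable fun q : ℝ × E2 => q.2 0 := by fun_prop
  have h1 : Measurable fun q : ℝ × E2 => q.2 1 := by fun_prop
  exact ((measurable_const.mul measurable_fst).floor).prodMk
    (((measurable_const.mul h0).floor).prodMk ((measurable_const.mul h1).floor))

/-- `⌊λ t⌋ = k` iff `t ∈ [k/λ, (k+1)/λ)`. -/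
theorem oe_floor_eq_iff (lam : ℝ) (hlam : 0 < lam) (t : ℝ) (k : ℤ) :
    ⌊lam * t⌋ = k ↔ t ∈ Set.Ico ((k : ℝ) / lam) (((k : ℝ) + 1) / lam) := by
  rw [Int.floor_eq_iff, Set.mem_Ico, div_le_iff₀ hlam, lt_div_iff₀ hlam, mul_comm t lam]

theorem oe_box_volume (lam : ℝ) (hlam : 0 < lam) (k : Z3) :
    volume (boxIdx lam ⁻¹' {k}) = ENNReal.ofReal (1 / lam ^ 3) := by
  obtain ⟨k0, k1, k2⟩ := k
  set a : Fin 2 → ℝ := ![(k1 : ℝ) / lam, (k2 : ℝ) / lam] with ha
  set b : Fin 2 → ℝ := ![((k1 : ℝ) + 1) / lam, ((k2 : ℝ) + 1) / lam] with hb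
  have hset : boxIdx lam ⁻¹' {(k0, k1, k2)} =
      Set.Ico ((k0 : ℝ) / lam) (((k0 : ℝ) + 1) / lam) ×ˢ
        ((@WithLp.ofLp 2 (Fin 2 → ℝ)) ⁻¹'
          (Set.pi Set.univ fun i => Set.Ico (a i) (b i))) := by
    ext ⟨c, x⟩
    simp only [Set.mem_preimage, Set.mem_singleton_iff, boxIdx, Prod.mk.injEq, Set.mem_prod,
      oe_floor_eq_iff lam hlam, Set.mem_pi, Set.mem_univ, forall_true_left, Fin.forall_fin_two]
    simp [ha, hb]
  have hvol : volume ((@WithLp.ofLp 2 (Fin 2 → ℝ)) ⁻¹'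
      (Set.pi Set.univ fun i => Set.Ico (a i) (b i))) =
        ENNReal.ofReal (1 / lam) * ENNReal.ofReal (1 / lam) := by
    rw [(PiLp.volume_preserving_ofLp (Fin 2)).measure_preimage
      (MeasurableSet.univ_pi fun i => measurableSet_Ico).nullMeasurableSet,
      Real.volume_pi_Ico, Fin.prod_univ_two]
    congr 2 <;> simp [ha, hb] <;> ring
  rw [hset, Measure.volume_eq_prod, Measure.prod_prod, hvol, Real.volume_Ico,
    ← ENNReal.ofReal_mul (by positivity), ← ENNReal.ofReal_mul (by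
      have : 0 < 1 / lam := by positivity
      have h2 : ((k0 : ℝ) + 1) / lam - (k0 : ℝ) / lam = 1 / lam := by ring
      rw [h2]; exact this.le)]
  congr 1
  field_simp
  ring

end Claimed.Agent.R255.Osc
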