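import Claimed.Agent.R255.Osc.EndSum

/-!
# R255 / OSC / FromEndA2 : counting boxes, logarithmic loss        (architect helper17)   LEAF L-OE-A2

Paper-free, Mathlib only.
* `oe_box_card_le` : a set of boxes which meet `[0,1] × {‖x‖ ≤ R}` has at most `8 (|R|+1)² λ³` elements:
  `k.1 = ⌊λ c⌋ ∈ [0, ⌊λ⌋]` (at most `λ+1 ≤ 2λ` values), `k.2.1, k.2.2 ∈ [-⌈λR⌉, ⌊λR⌋]` (at most `2λR+2 ≤ 2λ(R+1)` values; `|x i| ≤ ‖x‖`: `EuclideanSpace.norm_eq`/`PiLp.norm_apply_le`); `s ⊆ Icc ×ˢ Icc ×ˢ Icc`, `Int.card_Icc`.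
* `oe_log_loss` : `(2 ⌈log₂ λ⌉ + 2)² ≤ C λ^ν`   (`Real.log_le_rpow_div` or `Real.add_one_le_exp`).
-/

set_option autoImplicit false

namespace Claimed.Agent.R255.Osc

/-- number of integers in `[⌊-L⌋, ⌊L⌋]`. -/
theorem oe_card_Icc_floor (L : ℝ) (hL : 0 ≤ L) :
    ((Finset.Icc ⌊-L⌋ ⌊L⌋).card : ℝ) ≤ 2 * L + 2 := by
  rw [Int.card_Icc]
  have h1 : (⌊L⌋ : ℝ) ≤ L := Int.floor_le L
  have h2 : -L - 1 < (⌊-L⌋ : ℝ) := by
    have := Int.lt_floor_add_one (-L)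
    linarith
  have h3 : ⌊-L⌋ ≤ ⌊L⌋ := Int.floor_le_floor (by linarith)
  have h4 : (0 : ℤ) ≤ ⌊L⌋ + 1 - ⌊-L⌋ := by omega
  have h5 : (((⌊L⌋ + 1 - ⌊-L⌋).toNat : ℕ) : ℝ) = ((⌊L⌋ + 1 - ⌊-L⌋ : ℤ) : ℝ) := by
    have := Int.toNat_of_nonneg h4
    exact_mod_cast this
  rw [h5]
  push_cast
  linarith

theorem oe_box_card_le (lam : ℝ) (hlam : 1 ≤ lam) (R : ℝ) (s : Finset Z3)
    (hs : ∀ k ∈ s, ∃ q : ℝ × E2, boxIdx lam q = k ∧ q.1 ∈ Set.Icc (0 : ℝ) 1 ∧ ‖q.2‖ ≤ R) :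
    (s.card : ℝ) ≤ 8 * (|R| + 1) ^ 2 * lam ^ 3 := by
  have hlam0 : 0 < lam := by linarith
  set L : ℝ := lam * |R| with hL
  have hL0 : 0 ≤ L := by positivity
  set T : Finset Z3 := Finset.Icc 0 ⌊lam⌋ ×ˢ (Finset.Icc ⌊-L⌋ ⌊L⌋ ×ˢ Finset.Icc ⌊-L⌋ ⌊L⌋) with hT
  have hcoord : ∀ (x : E2) (i : Fin 2), ‖x‖ ≤ R → ⌊lam * x i⌋ ∈ Finset.Icc ⌊-L⌋ ⌊L⌋ := by
    intro x i hx
    have h1 : |x i| ≤ |R| := by
      have h2 : ‖x i‖ ≤ ‖x‖ := PiLp.norm_apply_le x i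
      rw [Real.norm_eq_abs] at h2
      exact h2.trans (hx.trans (le_abs_self R))
    obtain ⟨h3, h4⟩ := abs_le.1 h1
    rw [Finset.mem_Icc]
    constructor
    · apply Int.floor_le_floor
      rw [hL]
      nlinarith
    · apply Int.floor_le_floor
      rw [hL]
      nlinarith
  have hsub : s ⊆ T := by
    intro k hk
    obtain ⟨⟨c, x⟩, rfl, ⟨hc0, hc1⟩, hx⟩ := hs k hk
    simp only [hT, boxIdx, Finset.mem_product]
    refine ⟨?_, hcoord x 0 hx, hcoord x 1 hx⟩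
    rw [Finset.mem_Icc]
    constructor
    · exact Int.floor_nonneg.2 (by positivity)
    · apply Int.floor_le_floor
      simp only at hc1
      nlinarith
  have hcard : (s.card : ℝ) ≤ (T.card : ℝ) := by exact_mod_cast Finset.card_le_card hsub
  have h0 : ((Finset.Icc (0 : ℤ) ⌊lam⌋).card : ℝ) ≤ 2 * lam := by
    rw [Int.card_Icc]
    have h4 : (0 : ℤ) ≤ ⌊lam⌋ + 1 - 0 := by
      have : (0 : ℤ) ≤ ⌊lam⌋ := Int.floor_nonneg.2 hlam0.le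
      omega
    have h5 : (((⌊lam⌋ + 1 - 0).toNat : ℕ) : ℝ) = ((⌊lam⌋ + 1 - 0 : ℤ) : ℝ) := by
      have := Int.toNat_of_nonneg h4
      exact_mod_cast this
    rw [h5]
    push_cast
    have := Int.floor_le lam
    linarith
  have h1 : ((Finset.Icc ⌊-L⌋ ⌊L⌋).card : ℝ) ≤ 2 * lam * (|R| + 1) := by
    refine (oe_card_Icc_floor L hL0).trans ?_
    rw [hL]
    nlinarith [abs_nonneg R]
  have hTcard : (T.card : ℝ) ≤ 2 * lam * ((2 * lam * (|R| + 1)) * (2 * lam * (|R| + 1))) := by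
    rw [hT, Finset.card_product, Finset.card_product]
    push_cast
    have hn : (0 : ℝ) ≤ ((Finset.Icc ⌊-L⌋ ⌊L⌋).card : ℝ) := Nat.cast_nonneg _
    have hp : (0 : ℝ) ≤ 2 * lam * (|R| + 1) := by positivity
    exact mul_le_mul h0 (mul_le_mul h1 h1 hn hp) (mul_nonneg hn hn) (by positivity)
  calc (s.card : ℝ) ≤ (T.card : ℝ) := hcard
    _ ≤ 2 * lam * ((2 * lam * (|R| + 1)) * (2 * lam * (|R| + 1))) := hTcard
    _ = 8 * (|R| + 1) ^ 2 * lam ^ 3 := by ring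

/-- the logarithmic loss is absorbed by a power -/
theorem oe_log_loss (ν : ℝ) (hν : 0 < ν) :
    ∃ C : ℝ, 0 ≤ C ∧ ∀ lam : ℝ, 2 ≤ lam → (2 * ((⌈Real.logb 2 lam⌉₊ : ℕ) : ℝ) + 2) ^ 2 ≤ C * lam ^ ν := by
  have hlog2 : 0 < Real.log 2 := Real.log_pos (by norm_num)
  set K : ℝ := 4 / (ν * Real.log 2) + 4 with hK
  have hK0 : 0 ≤ K := by positivity
  refine ⟨K ^ 2, by positivity, fun lam hlam => ?_⟩
  have hlam0 : 0 < lam := by linarith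
  have hlb : 0 ≤ Real.logb 2 lam := Real.logb_nonneg (by norm_num) (by linarith)
  have hceil : ((⌈Real.logb 2 lam⌉₊ : ℕ) : ℝ) ≤ Real.logb 2 lam + 1 := (Nat.ceil_lt_add_one hlb).le
  have hp1 : 1 ≤ lam ^ (ν / 2) := Real.one_le_rpow (by linarith) (by positivity)
  have hlog : Real.log lam ≤ lam ^ (ν / 2) / (ν / 2) := Real.log_le_rpow_div hlam0.le (by positivity)
  have hlb2 : Real.logb 2 lam ≤ 2 / (ν * Real.log 2) * lam ^ (ν / 2) := by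
    rw [Real.logb, div_le_iff₀ hlog2]
    calc Real.log lam ≤ lam ^ (ν / 2) / (ν / 2) := hlog
      _ = 2 / (ν * Real.log 2) * lam ^ (ν / 2) * Real.log 2 := by field_simp
  have hmain : 2 * ((⌈Real.logb 2 lam⌉₊ : ℕ) : ℝ) + 2 ≤ K * lam ^ (ν / 2) := by
    calc 2 * ((⌈Real.logb 2 lam⌉₊ : ℕ) : ℝ) + 2 ≤ 2 * (Real.logb 2 lam + 1) + 2 := by linarith
      _ = 2 * Real.logb 2 lam + 4 * 1 := by ring
      _ ≤ 2 * (2 / (ν * Real.log 2) * lam ^ (ν / 2)) + 4 * lam ^ (ν / 2) := by linarith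
      _ = K * lam ^ (ν / 2) := by rw [hK]; ring
  have hsq : lam ^ (ν / 2) * lam ^ (ν / 2) = lam ^ ν := by
    rw [← Real.rpow_add hlam0]
    congr 1
    ring
  calc (2 * ((⌈Real.logb 2 lam⌉₊ : ℕ) : ℝ) + 2) ^ 2 ≤ (K * lam ^ (ν / 2)) ^ 2 :=
        pow_le_pow_left₀ (by positivity) hmain 2
    _ = K ^ 2 * (lam ^ (ν / 2) * lam ^ (ν / 2)) := by ring
    _ = K ^ 2 * lam ^ ν := by rw [hsq]

end Claimed.Agent.R255.Osc
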